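import Vale.Agent.P269.Inv.FFT

/-!
# P269, invariant theory: the first fundamental theorem with ambient slots and full contractions
(helper4)
-/

open Function

namespace Vale.Agent.P269.Inv

variable {H : Type*} [AddCommGroup H] [Module ℂ H]
variable {B : H →ₗ[ℂ] H →ₗ[ℂ] ℂ} {V : Submodule ℂ H} {ε : ℂ}

section General

variable {ι : Type*} [Fintype ι] [DecidableEq ι] {T : MF ι H}
variable {κ : Type*} [Fintype κ] {e f : κ → H}

theorem Skew.eq_sum_wd (h : IsForm B V ε) (hF : Frame B V e f) {A : Module.End ℂ H}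
    (hA : Skew B V A) : (2 : ℂ) • A = ∑ a, wd B ε (f a) (A (e a)) := by
  have h1 : ∀ x, ∑ a, (ε * B x (A (e a))) • f a = -A x := by
    intro x
    rw [← hF.expand' h (hA.mem x), ← Finset.sum_neg_distrib]
    refine Finset.sum_congr rfl fun a _ => ?_
    rw [h.symm _ (hF.e_mem a) _ (hA.mem x), eq_neg_of_add_eq_zero_left (hA.skew x _ (hF.e_mem a))]
    module
  have h2 : ∀ x, ∑ a, B x (f a) • A (e a) = A x := by
    intro x
    rw [← sub_eq_zero]
    refine h.nondeg _ (V.sub_mem (V.sum_mem fun a _ => V.smul_mem _ (hA.mem _)) (hA.mem x))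
      fun v hv => ?_
    have h3 : ∀ y, B v (A y) = -(ε * B y (A v)) := fun y => by
      rw [h.symm v hv _ (hA.mem y), eq_neg_of_add_eq_zero_left (hA.skew y v hv)]
      ring
    have h4 : B x (A v) = ∑ a, B (e a) (A v) * B x (f a) := by
      conv_lhs => rw [← hF.expand' h (hA.mem v)]
      simp
    simp only [map_sub, map_sum, map_smul, smul_eq_mul, h3]
    rw [h4, Finset.mul_sum, sub_neg_eq_add, ← Finset.sum_add_distrib]
    exact Finset.sum_eq_zero fun a _ => by ring
  ext x
  simp only [LinearMap.sum_apply, wd_apply, Finset.sum_sub_distrib, h1, h2, LinearMap.smul_apply]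
  module

/-- The invariance under the elementary elements gives the invariance under the Lie algebra. -/
theorem LieInv.kills [FiniteDimensional ℂ H] (h : IsForm B V ε) (hT : LieInv B V ε T)
    {A : Module.End ℂ H} (hA : Skew B V A) : Kills A T := by
  obtain ⟨n, e, f, hF, -⟩ := exists_frame h
  refine Kills.of_smul two_ne_zero ?_
  rw [hA.eq_sum_wd h hF]
  exact Kills.sum _ fun a _ => hT _ (hF.f_mem a) _ (hA.mem _)

/-- The canonical tensor is killed by the Lie algebra. -/
theorem Frame.sum_skew {M : Type*} [AddCommGroup M] [Module ℂ M] (h : IsForm B V ε)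
    (hF : Frame B V e f) {A : Module.End ℂ H} (hA : Skew B V A) (S : H →ₗ[ℂ] H →ₗ[ℂ] M) :
    ∑ a, S (A (e a)) (f a) + ∑ a, S (e a) (A (f a)) = 0 := by
  have h1 : ∀ a, S (A (e a)) (f a) = ∑ b, B (A (e a)) (f b) • S (e b) (f a) := by
    intro a
    conv_lhs => rw [← hF.expand _ (hA.mem (e a))]
    simp [LinearMap.sum_apply]
  have h2 : ∀ b, S (e b) (A (f b)) = ∑ a, B (e a) (A (f b)) • S (e b) (f a) := by
    intro b
    conv_lhs => rw [← hF.expand' h (hA.mem (f b))]
    simp
  simp only [h1, h2]
  rw [Finset.sum_comm, ← Finset.sum_add_distrib]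
  refine Finset.sum_eq_zero fun b _ => ?_
  rw [← Finset.sum_add_distrib]
  refine Finset.sum_eq_zero fun a _ => ?_
  rw [← add_smul, hA.skew _ _ (hF.f_mem b), zero_smul]

theorem Frame.refl (h : IsForm B V 1) (hF : Frame B V e f) {δ : H} (hδ : δ ∈ V) (h0 : B δ δ ≠ 0) :
    Frame B V (fun a => refl B δ (e a)) fun a => refl B δ (f a) := by
  refine ⟨fun a => refl_mem hδ (hF.e_mem a), fun a => refl_mem hδ (hF.f_mem a), fun x hx => ?_⟩
  have h1 := congrArg (Inv.refl B δ) (hF.expand _ (refl_mem (B := B) hδ hx))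
  rw [← Module.End.mul_apply, refl_mul_self h0, Module.End.one_apply, map_sum] at h1
  rw [← h1]
  refine Finset.sum_congr rfl fun a _ => ?_
  rw [map_smul, h.refl_adj hδ (hF.f_mem a), h1]

variable (P : ι → Prop) [DecidablePred P]

omit [Fintype ι] [AddCommGroup H] [Module ℂ H] in
theorem restrict_update (z : {a // ¬ P a} → H) (x : {a // P a} → H) (i : {a // P a}) (c : H) :
    (fun j => if h : P j then update x i c ⟨j, h⟩ else z ⟨j, h⟩) =
      update (fun j => if h : P j then x ⟨j, h⟩ else z ⟨j, h⟩) i c :=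
  MultilinearMap.domDomRestrict_aux (M₁ := fun _ => H) P x z i c

theorem der_restrict (A : Module.End ℂ H) (T : MF ι H) (z : {a // ¬ P a} → H)
    (x : {a // P a} → H) :
    der A T (fun j => if h : P j then x ⟨j, h⟩ else z ⟨j, h⟩) =
      der A (T.domDomRestrict P z) x + ∑ i : {a // ¬ P a},
        T (update (fun j => if h : P j then x ⟨j, h⟩ else z ⟨j, h⟩) i (A (z i))) := by
  rw [der_apply, der_apply, ← Fintype.sum_subtype_add_sum_subtype P]
  congr 1
  · refine Finset.sum_congr rfl fun i _ => ?_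
    rw [MultilinearMap.domDomRestrict_apply, restrict_update, dif_pos i.2]
  · refine Finset.sum_congr rfl fun i _ => ?_
    rw [dif_neg i.2]

theorem Kills.restrict {A : Module.End ℂ H} (hA : Kills A T) {z : {a // ¬ P a} → H}
    (hz : ∀ k, A (z k) = 0) : Kills A (T.domDomRestrict P z) := by
  intro x
  have h1 := der_restrict P A T z x
  rw [kills_iff.1 hA] at h1
  simp only [hz, MultilinearMap.map_update_zero, Finset.sum_const_zero, add_zero] at h1
  rw [← der_apply, ← h1]
  rfl

omit [Fintype ι] [DecidableEq ι] in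
theorem Fixes.restrict_apply {g : Module.End ℂ H} (hg : Fixes g T) (z : {a // ¬ P a} → H)
    (x : {a // P a} → H) :
    T.domDomRestrict P (fun k => g (z k)) (fun k => g (x k)) = T.domDomRestrict P z x := by
  rw [MultilinearMap.domDomRestrict_apply, MultilinearMap.domDomRestrict_apply,
    ← hg fun j => if h : P j then x ⟨j, h⟩ else z ⟨j, h⟩]
  congr 1
  funext j
  split_ifs <;> rfl

/-- Plugging vectors orthogonal to `V` preserves the invariance. -/
theorem IsInv.restrict (hT : IsInv B V ε T) {z : {a // ¬ P a} → H}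
    (hz : ∀ k, ∀ v ∈ V, B (z k) v = 0) : IsInv B V ε (T.domDomRestrict P z) := by
  refine ⟨fun u hu v hv => (hT.lie u hu v hv).restrict P fun k => ?_, fun h1 h2 => ?_⟩
  · simp [wd_apply, hz k u hu, hz k v hv]
  · obtain ⟨δ, hδ, h0, hδT⟩ := hT.refl h1 h2
    refine ⟨δ, hδ, h0, fun x => ?_⟩
    rw [← hδT.restrict_apply P z x]
    congr 2
    funext k
    simp [refl_apply, hz k δ hδ]

/-- The traceless form of the first fundamental theorem, for a set `S` of slots. -/
theorem eq_zero_of_traceless_on [FiniteDimensional ℂ H] (h : IsForm B V ε) (hT : IsInv B V ε T)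
    (hF : Frame B V e f) {S : Finset ι} (hS : S.Nonempty) {v : ι → H} (hv : ∀ k ∈ S, v k ∈ V)
    (hv' : ∀ k ∉ S, ∀ w ∈ V, B (v k) w = 0)
    (hc : ∀ x : ι → H, (∀ k ∈ S, x k ∈ V) → (∀ k ∉ S, x k = v k) → ∀ i ∈ S, ∀ j ∈ S, j ≠ i →
      ∑ a, T (update (update x i (e a)) j (f a)) = 0) : T v = 0 := by
  have : Nonempty {a // a ∈ S} := hS.to_subtype
  have h1 := @eq_zero_of_traceless _ _ (Subtype.fintype (· ∈ S)) _ _ _ _ _ _ _ _ _ h
    (hT.restrict (· ∈ S) (z := fun k => v k) fun k => hv' k k.2) _ _ _ _ hF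
    (fun x hx i j hij => by
      simp only [MultilinearMap.domDomRestrict_apply]
      refine (Finset.sum_congr rfl fun a _ => ?_).trans
        (hc (fun k => if h : k ∈ S then x ⟨k, h⟩ else v k) (fun k hk => ?_) (fun k hk => ?_)
          i i.2 j j.2 fun h => hij (Subtype.ext h))
      · rw [← restrict_update (· ∈ S) (fun k => v k), ← restrict_update (· ∈ S) (fun k => v k)]
      · simp only [dif_pos hk]; exact hx _
      · simp only [dif_neg hk]) (fun k => v k) fun k => hv k k.2
  simpa using h1

/-- The contraction of the slots `i`, `j`, as a form in the other slots. -/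
noncomputable def conAt (e f : κ → H) (T : MF ι H) (i j : ι) : MF {k // k ≠ i ∧ k ≠ j} H :=
  ∑ a, T.domDomRestrict (fun k => k ≠ i ∧ k ≠ j) fun k => if k.1 = i then e a else f a

omit [Fintype ι] [AddCommGroup H] [Module ℂ H] in
theorem restrict_two {i j : ι} (hij : j ≠ i) (x : {k // k ≠ i ∧ k ≠ j} → H) (p q : H) (y : ι → H)
    (hy : ∀ k : {k // k ≠ i ∧ k ≠ j}, y k = x k) :
    (fun k => if h : k ≠ i ∧ k ≠ j then x ⟨k, h⟩ else if k = i then p else q) =
      update (update y i p) j q := by
  funext k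
  by_cases h1 : k = j
  · subst h1; simp [hij]
  · by_cases h2 : k = i
    · subst h2; simp [update_of_ne h1]
    · rw [dif_pos ⟨h2, h1⟩, update_of_ne h1, update_of_ne h2]
      exact (hy ⟨k, h2, h1⟩).symm

omit [Fintype ι] in
theorem conAt_apply (T : MF ι H) {i j : ι} (hij : j ≠ i) (x : {k // k ≠ i ∧ k ≠ j} → H)
    (y : ι → H) (hy : ∀ k : {k // k ≠ i ∧ k ≠ j}, y k = x k) :
    conAt e f T i j x = ∑ a, T (update (update y i (e a)) j (f a)) := by
  simp only [conAt, sum_apply, MultilinearMap.domDomRestrict_apply]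
  exact Finset.sum_congr rfl fun a _ => by rw [restrict_two hij x _ _ y hy]

/-- Contraction preserves the invariance. -/
theorem IsInv.conAt (h : IsForm B V ε) (hT : IsInv B V ε T) (hF : Frame B V e f) {i j : ι}
    (hij : j ≠ i) : IsInv B V ε (conAt e f T i j) := by
  refine ⟨fun u hu w hw x => ?_, fun h1 h2 => ?_⟩
  · let y : ι → H := fun k => if h : k ≠ i ∧ k ≠ j then x ⟨k, h⟩ else 0
    have hy : ∀ k : {k // k ≠ i ∧ k ≠ j}, y k = x k := fun k => dif_pos k.2
    have h3 : ∀ a, ∑ k : {k // k ≠ i ∧ k ≠ j},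
        T (update (update (update y i (e a)) j (f a)) k (wd B ε u w (x k))) +
        (two T y hij (wd B ε u w (e a)) (f a) + two T y hij (e a) (wd B ε u w (f a))) = 0 := by
      intro a
      rw [← hT.lie u hu w hw (update (update y i (e a)) j (f a)),
        ← Finset.add_sum_erase _ _ (Finset.mem_univ j),
        ← Finset.add_sum_erase _ _ (Finset.mem_erase.2 ⟨hij.symm, Finset.mem_univ i⟩),
        Finset.sum_subtype ((Finset.univ.erase j).erase i) (p := fun k => k ≠ i ∧ k ≠ j)
          (by simp)]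
      have h4 : ∀ k : {k // k ≠ i ∧ k ≠ j}, update (update y i (e a)) j (f a) k = x k := by
        intro k
        rw [update_of_ne k.2.2, update_of_ne k.2.1, hy]
      simp only [h4, update_self, update_idem, update_of_ne hij.symm, two, LinearMap.mk₂_apply]
      rw [update_comm hij (f a) (wd B ε u w (e a)) (update y i (e a)), update_idem]
      ring
    have h4 := Finset.sum_congr rfl fun a (_ : a ∈ Finset.univ) => h3 a
    rw [Finset.sum_add_distrib, Finset.sum_add_distrib,
      hF.sum_skew h (h.skew_wd hu hw) (two T y hij), add_zero, Finset.sum_comm,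
      Finset.sum_const_zero] at h4
    rw [← h4]
    refine Finset.sum_congr rfl fun k _ => ?_
    rw [conAt_apply T hij _ (update y k (wd B ε u w (x k)))]
    · refine Finset.sum_congr rfl fun a _ => ?_
      rw [update_comm k.2.1, update_comm k.2.2]
    · intro k'
      by_cases hk : k' = k
      · subst hk; simp
      · rw [update_of_ne hk, update_of_ne fun h => hk (Subtype.ext h), hy]
  · subst h1
    obtain ⟨δ, hδ, h0, hδT⟩ := hT.refl rfl h2
    refine ⟨δ, hδ, h0, fun x => ?_⟩
    let y : ι → H := fun k => if h : k ≠ i ∧ k ≠ j then x ⟨k, h⟩ else 0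
    have hy : ∀ k : {k // k ≠ i ∧ k ≠ j}, y k = x k := fun k => dif_pos k.2
    rw [conAt_apply T hij x y hy, conAt_apply T hij _ (fun k => Inv.refl B δ (y k))
      fun k => by rw [hy], hF.con_eq h (hF.refl h hδ h0) T _ hij]
    refine Finset.sum_congr rfl fun a _ => ?_
    rw [← hδT (update (update y i (e a)) j (f a))]
    congr 1
    funext k
    simp only [update_apply, apply_ite (Inv.refl B δ)]

/-- The full contraction along the pairs of slots `(l q, r q)`, with the vectors `a k` in the other
slots. -/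
noncomputable def conAll (e f : κ → H) (T : MF ι H) {p : ℕ} (l r : Fin p → ι) (a : ι → H) : ℂ :=
  ∑ β : Fin p → κ, T (extend (Sum.elim l r) (Sum.elim (fun q => e (β q)) fun q => f (β q)) a)

omit [Fintype ι] [DecidableEq ι] in
theorem conAll_zero (T : MF ι H) (l r : Fin 0 → ι) (a : ι → H) : conAll e f T l r a = T a := by
  rw [conAll, Fintype.sum_unique]
  congr 1
  funext k
  rw [extend_apply']
  rintro ⟨q | q, -⟩ <;> exact q.elim0

omit [Fintype ι] [DecidableEq ι] in
theorem injective_cons {i j : ι} (hij : j ≠ i) {p : ℕ} {l r : Fin p → {k // k ≠ i ∧ k ≠ j}}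
    (hlr : Injective (Sum.elim l r)) :
    Injective (Sum.elim (Fin.cons i fun q => (l q : ι) : Fin (p + 1) → ι)
      (Fin.cons j fun q => (r q : ι) : Fin (p + 1) → ι)) := by
  have hl : ∀ q q', (l q : ι) = l q' → q = q' := fun q q' h =>
    Sum.inl_injective (@hlr (Sum.inl q) (Sum.inl q') (Subtype.ext h))
  have hr : ∀ q q', (r q : ι) = r q' → q = q' := fun q q' h =>
    Sum.inr_injective (@hlr (Sum.inr q) (Sum.inr q') (Subtype.ext h))
  have hlr' : ∀ q q', (l q : ι) ≠ r q' := fun q q' h =>
    Sum.inl_ne_inr (@hlr (Sum.inl q) (Sum.inr q') (Subtype.ext h))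
  rintro (q | q) (q' | q') <;> refine Fin.cases ?_ (fun q => ?_) q <;>
    refine Fin.cases ?_ (fun q' => ?_) q' <;> intro h <;>
    simp only [Sum.elim_inl, Sum.elim_inr, Fin.cons_zero, Fin.cons_succ] at h
  · rfl
  · exact absurd h.symm (l q').2.1
  · exact absurd h (l q).2.1
  · rw [hl q q' h]
  · exact absurd h.symm hij
  · exact absurd h.symm (r q').2.1
  · exact absurd h (l q).2.2
  · exact absurd h (hlr' q q')
  · exact absurd h hij
  · exact absurd h.symm (l q').2.2
  · exact absurd h (r q).2.1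
  · exact absurd h.symm (hlr' q' q)
  · rfl
  · exact absurd h.symm (r q').2.2
  · exact absurd h (r q).2.2
  · rw [hr q q' h]

omit [Fintype ι] in
theorem conAll_conAt (T : MF ι H) {i j : ι} (hij : j ≠ i) {p : ℕ}
    {l r : Fin p → {k // k ≠ i ∧ k ≠ j}} (hlr : Injective (Sum.elim l r))
    (a : {k // k ≠ i ∧ k ≠ j} → H) (y : ι → H) (hy : ∀ k : {k // k ≠ i ∧ k ≠ j}, y k = a k) :
    conAll e f (conAt e f T i j) l r a = conAll e f T (Fin.cons i fun q => (l q : ι))
      (Fin.cons j fun q => (r q : ι)) y := by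
  have hinj := injective_cons hij hlr
  rw [conAll, conAll, ← (Fin.consEquiv fun _ : Fin (p + 1) => κ).sum_comp, Fintype.sum_prod_type,
    Finset.sum_comm]
  refine Finset.sum_congr rfl fun β _ => ?_
  simp only [conAt, sum_apply, MultilinearMap.domDomRestrict_apply]
  refine Finset.sum_congr rfl fun c _ => ?_
  congr 1
  funext k
  by_cases h1 : k = i
  · subst h1
    have := hinj.extend_apply (Sum.elim (fun q => e ((Fin.consEquiv fun _ => κ) (c, β) q))
      fun q => f ((Fin.consEquiv fun _ => κ) (c, β) q)) y (Sum.inl 0)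
    simp only [Sum.elim_inl, Fin.cons_zero] at this
    rw [this]
    simp [Fin.consEquiv]
  by_cases h2 : k = j
  · subst h2
    have := hinj.extend_apply (Sum.elim (fun q => e ((Fin.consEquiv fun _ => κ) (c, β) q))
      fun q => f ((Fin.consEquiv fun _ => κ) (c, β) q)) y (Sum.inr 0)
    simp only [Sum.elim_inr, Fin.cons_zero] at this
    rw [this]
    simp [Fin.consEquiv, h1]
  rw [dif_pos ⟨h1, h2⟩]
  by_cases h3 : ∃ s, Sum.elim l r s = ⟨k, h1, h2⟩
  · obtain ⟨s, hs⟩ := h3
    rw [← hs, hlr.extend_apply]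
    have hk : k = (Sum.elim l r s : {k // k ≠ i ∧ k ≠ j}) := by rw [hs]
    rcases s with q | q
    · have := hinj.extend_apply (Sum.elim (fun q => e ((Fin.consEquiv fun _ => κ) (c, β) q))
        fun q => f ((Fin.consEquiv fun _ => κ) (c, β) q)) y (Sum.inl q.succ)
      simp only [Sum.elim_inl, Fin.cons_succ] at this hk
      rw [hk, this]
      simp [Fin.consEquiv]
    · have := hinj.extend_apply (Sum.elim (fun q => e ((Fin.consEquiv fun _ => κ) (c, β) q))
        fun q => f ((Fin.consEquiv fun _ => κ) (c, β) q)) y (Sum.inr q.succ)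
      simp only [Sum.elim_inr, Fin.cons_succ] at this hk
      rw [hk, this]
      simp [Fin.consEquiv]
  · rw [extend_apply' _ _ _ h3, extend_apply']
    · exact (hy ⟨k, h1, h2⟩).symm
    · rintro ⟨q | q, hq⟩ <;> revert hq <;> refine Fin.cases ?_ (fun q => ?_) q <;> intro hq <;>
        simp only [Sum.elim_inl, Sum.elim_inr, Fin.cons_zero, Fin.cons_succ] at hq
      · exact h1 hq.symm
      · exact h3 ⟨Sum.inl q, Subtype.ext hq⟩
      · exact h2 hq.symm
      · exact h3 ⟨Sum.inr q, Subtype.ext hq⟩

end General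

universe u

/-- **First fundamental theorem**: let `H = A + V` with `A` orthogonal to `V`.  An invariant form
all of whose full contractions (ambient vectors in the slots which are not contracted) vanish is
zero. -/
theorem eq_zero_of_conAll [FiniteDimensional ℂ H] (h : IsForm B V ε) {A : Submodule ℂ H}
    (hA : ∀ a ∈ A, ∀ v ∈ V, B a v = 0) (hAV : A ⊔ V = ⊤) {κ : Type*} [Fintype κ] {e f : κ → H}
    (hF : Frame B V e f) {ι : Type u} [Fintype ι] [DecidableEq ι] {T : MF ι H}
    (hT : IsInv B V ε T)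
    (hc : ∀ (p : ℕ) (l r : Fin p → ι), Injective (Sum.elim l r) → ∀ a : ι → H, (∀ k, a k ∈ A) →
      conAll e f T l r a = 0) : T = 0 := by
  induction hn : Fintype.card ι using Nat.strong_induction_on generalizing ι with
  | _ n ih =>
    ext v
    have h1 : ∀ k, ∃ a ∈ A, ∃ w ∈ V, a + w = v k := fun k =>
      Submodule.mem_sup.1 (hAV ▸ Submodule.mem_top)
    choose a ha w hw haw using h1
    have h2 : v = w + a := funext fun k => by rw [← haw k, Pi.add_apply, add_comm]
    rw [h2, T.map_add_univ]
    refine Finset.sum_eq_zero fun S _ => ?_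
    rcases S.eq_empty_or_nonempty with rfl | hS
    · rw [Finset.piecewise_empty, ← conAll_zero (e := e) (f := f) T Fin.elim0 Fin.elim0]
      refine hc 0 _ _ ?_ a ha
      rintro (q | q) <;> exact q.elim0
    refine eq_zero_of_traceless_on h hT hF hS (fun k hk => ?_) (fun k hk => ?_)
      fun x _ _ i _ j _ hij => ?_
    · rw [Finset.piecewise_eq_of_mem _ _ _ hk]; exact hw k
    · rw [Finset.piecewise_eq_of_notMem _ _ _ hk]; exact hA _ (ha k)
    have h3 : conAt e f T i j = 0 := by
      refine ih (Fintype.card {k // k ≠ i ∧ k ≠ j}) ?_ (hT.conAt h hF hij) ?_ rfl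
      · rw [← hn]
        exact Fintype.card_subtype_lt (x := i) (by simp)
      · intro p l r hlr b hb
        rw [conAll_conAt T hij hlr b (fun k => if h : k ≠ i ∧ k ≠ j then b ⟨k, h⟩ else 0)
          fun k => dif_pos k.2]
        refine hc _ _ _ (injective_cons hij hlr) _ fun k => ?_
        split_ifs
        exacts [hb _, A.zero_mem]
    rw [← conAt_apply T hij (fun k => x k) x fun _ => rfl, h3]
    rfl

end Vale.Agent.P269.Inv
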