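import Vale.Agent.P269.Inv.Full

/-!
# P269, invariant theory: invariance under the full orthogonal and symplectic groups (helper4)
-/

open Function

namespace Vale.Agent.P269.Inv

variable {ι H : Type*} [Fintype ι] [DecidableEq ι] [AddCommGroup H] [Module ℂ H]
variable {B : H →ₗ[ℂ] H →ₗ[ℂ] ℂ} {V : Submodule ℂ H} {ε : ℂ} {T : MF ι H}

/-- The isometries of `V`, extended by the identity on the orthogonal. -/
structure Isom (B : H →ₗ[ℂ] H →ₗ[ℂ] ℂ) (V : Submodule ℂ H) (g : Module.End ℂ H) : Prop where
  mem : ∀ x, g x - x ∈ V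
  isom : ∀ x, ∀ v ∈ V, B (g x) (g v) = B x v

theorem Isom.map_mem {g : Module.End ℂ H} (hg : Isom B V g) {v : H} (hv : v ∈ V) : g v ∈ V := by
  have := V.add_mem (hg.mem v) hv
  rwa [sub_add_cancel] at this

theorem Isom.one : Isom B V 1 := ⟨fun x => by simp, fun _ _ _ => rfl⟩

theorem Isom.mul {g g' : Module.End ℂ H} (hg : Isom B V g) (hg' : Isom B V g') :
    Isom B V (g * g') := by
  refine ⟨fun x => ?_, fun x v hv => ?_⟩
  · have := V.add_mem (hg.mem (g' x)) (hg'.mem x)
    rwa [sub_add_sub_cancel] at this
  · rw [Module.End.mul_apply, Module.End.mul_apply, hg.isom _ _ (hg'.map_mem hv), hg'.isom _ _ hv]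

theorem IsForm.isom_refl (h : IsForm B V 1) {u : H} (hu : u ∈ V) (h0 : B u u ≠ 0) :
    Isom B V (refl B u) :=
  ⟨fun x => by
    rw [refl_apply, sub_sub_cancel_left]
    exact V.neg_mem (V.smul_mem _ hu), fun x _ hv => h.refl_refl hu h0 hv x⟩

theorem Isom.refl_conj {g : Module.End ℂ H} (hg : Isom B V g) {u : H} (hu : u ∈ V) :
    refl B (g u) * g = g * refl B u := by
  ext x
  simp only [Module.End.mul_apply, refl_apply, hg.isom _ _ hu, map_sub, map_smul]

theorem Isom.eq_one {g : Module.End ℂ H} (hg : Isom B ⊥ g) : g = 1 := by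
  ext x
  exact sub_eq_zero.1 ((Submodule.mem_bot ℂ).1 (hg.mem x))

omit [Fintype ι] [DecidableEq ι] in
theorem Fixes.of_mul_left {g g' : Module.End ℂ H} (hg : Fixes g T) (h : Fixes (g * g') T) :
    Fixes g' T := fun v => (hg fun i => g' (v i)).symm.trans (h v)

omit [Fintype ι] [DecidableEq ι] in
theorem Good.map [FiniteDimensional ℂ H] (h : IsForm B V 1) {g : Module.End ℂ H} (hg : Isom B V g)
    (hgT : Fixes g T) {u : H} (hu : Good B V T u) : Good B V T (g u) := by
  refine ⟨hg.map_mem hu.mem, by rw [hg.isom _ _ hu.mem]; exact hu.ne, ?_⟩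
  have hinj : Injective g := by
    rw [injective_iff_map_eq_zero]
    intro x hx
    have hxV : x ∈ V := by
      have := hg.mem x
      rwa [hx, zero_sub, V.neg_mem_iff] at this
    exact h.nondeg x hxV fun v _ => by rw [← hg.isom v x hxV, hx, map_zero]
  obtain ⟨g', hg'⟩ := ((Module.End.isUnit_iff g).2
    ⟨hinj, LinearMap.injective_iff_surjective.1 hinj⟩).exists_right_inv
  have h1 : Inv.refl B (g u) = g * Inv.refl B u * g' := by
    rw [← hg.refl_conj hu.mem, mul_assoc, hg', mul_one]
  rw [h1]
  exact (hgT.mul hu.fixes).mul (hgT.inv hg')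

/-- The exponential of an element with `A ^ 3 = - A`. -/
theorem Kills.fixes_of_rot {A : Module.End ℂ H} (hA : Kills A T) (h3 : A * A * A = -A) (t : ℂ) :
    Fixes (1 + Complex.sin t • A + (1 - Complex.cos t) • (A * A)) T := by
  have := fixes_of_kills hA ![1, A, A * A]
    (f := ![fun _ => 1, fun t => Complex.sin t, fun t => 1 - Complex.cos t])
    (f' := ![fun _ => 0, fun t => Complex.cos t, fun t => Complex.sin t]) ?_ ?_ ?_ t
  · simpa [Fin.sum_univ_three] using this
  · intro a t
    fin_cases a
    · exact hasDerivAt_const t 1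
    · exact Complex.hasDerivAt_sin t
    · simpa using (Complex.hasDerivAt_cos t).const_sub 1
  · simp [Fin.sum_univ_three]
  · intro t
    simp only [Fin.sum_univ_three, Matrix.cons_val_zero, Matrix.cons_val_one, Matrix.cons_val_two,
      Matrix.head_cons, Matrix.tail_cons, zero_smul, one_smul, zero_add, mul_add, mul_one,
      mul_smul_comm, ← mul_assoc, h3]
    module

theorem Skew.isom {A : Module.End ℂ H} (hA : Skew B V A) {s c k : ℂ} (h3 : A * A * A = k • A)
    (hsc : 2 * c - s ^ 2 + k * c ^ 2 = 0) : Isom B V (1 + s • A + c • (A * A)) := by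
  refine ⟨fun x => ?_, fun x v hv => ?_⟩
  · have : (1 + s • A + c • (A * A)) x - x = s • A x + c • A (A x) := by
      simp [add_assoc]
    rw [this]
    exact V.add_mem (V.smul_mem _ (hA.mem _)) (V.smul_mem _ (hA.mem _))
  · have h1 : ∀ y, ∀ w ∈ V, B (A y) w = -B y (A w) := fun y w hw =>
      eq_neg_of_add_eq_zero_left (hA.skew y w hw)
    have h2 : ∀ y, A (A (A y)) = k • A y := fun y => congrArg (fun g : Module.End ℂ H => g y) h3
    simp only [LinearMap.add_apply, LinearMap.smul_apply, Module.End.mul_apply,
      Module.End.one_apply, map_add, map_smul, smul_eq_mul, h1 _ _ hv, h1 _ _ (hA.mem _), h2]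
    linear_combination (B x (A (A v))) * hsc

theorem exists_cos_sin {a b : ℂ} (h : a ^ 2 + b ^ 2 = 1) :
    ∃ t, Complex.cos t = a ∧ Complex.sin t = b := by
  obtain ⟨t, ht⟩ := Complex.cos_surjective a
  have h1 : (Complex.sin t - b) * (Complex.sin t + b) = 0 := by
    linear_combination Complex.sin_sq_add_cos_sq t - h - (Complex.cos t + a) * ht
  rcases mul_eq_zero.1 h1 with h2 | h2
  · exact ⟨t, ht, sub_eq_zero.1 h2⟩
  · exact ⟨-t, by rw [Complex.cos_neg, ht], by rw [Complex.sin_neg]; linear_combination -h2⟩

/-- All reflections fix an invariant form. -/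
theorem IsInv.fixes_refl [FiniteDimensional ℂ H] (h : IsForm B V 1) (hT : IsInv B V 1 T) {v : H}
    (hv : v ∈ V) (h0 : B v v ≠ 0) : Fixes (Inv.refl B v) T := by
  obtain ⟨δ, hδ, hδ0, hδT⟩ := hT.refl rfl fun hV => h0 (by
    have h1 : v = 0 := (Submodule.mem_bot ℂ).1 (hV ▸ hv)
    rw [h1, map_zero])
  have hg : Good B V T δ := ⟨hδ, hδ0, hδT⟩
  obtain ⟨a, u, hu, huδ, rfl⟩ : ∃ (a : ℂ) (u : H), u ∈ V ∧ B u δ = 0 ∧ v = a • δ + u :=
    ⟨B v δ / B δ δ, v - (B v δ / B δ δ) • δ, V.sub_mem hv (V.smul_mem _ hδ),
      by simp [div_mul_cancel₀ _ hδ0], by abel⟩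
  have hδu : B δ u = 0 := by rw [h.comm hδ hu, huδ]
  have hvv : B (a • δ + u) (a • δ + u) = a ^ 2 * B δ δ + B u u := by
    simp only [map_add, map_smul, LinearMap.add_apply, LinearMap.smul_apply, smul_eq_mul, huδ, hδu]
    ring
  rw [hvv] at h0
  by_cases hb : B u u = 0
  · have ha : a ≠ 0 := fun ha => h0 (by simp [ha, hb])
    have h3 : wd B 1 δ u * wd B 1 δ u * wd B 1 δ u = 0 := by
      ext x
      simp [wd_apply, huδ, hδu, hb]
    have h4 := (hg.map h ((h.skew_wd hδ hu).isom (s := (a * B δ δ)⁻¹)
      (c := (a * B δ δ)⁻¹ ^ 2 / 2) (k := 0) (by rw [h3, zero_smul]) (by ring))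
      ((hT.lie δ hδ u hu).fixes_of_cube h3 _)).smul ha
    convert h4.fixes using 2
    simp only [LinearMap.add_apply, LinearMap.smul_apply, Module.End.mul_apply,
      Module.End.one_apply, wd_apply, map_sub, map_smul, huδ, hδu, hb]
    match_scalars
    · ring
    · field_simp
      ring
  · obtain ⟨r, hr⟩ := IsSepClosed.exists_pow_nat_eq (B δ δ * B u u) 2
    have hr0 : r ≠ 0 := fun h1 => by
      rw [h1] at hr
      exact mul_ne_zero hδ0 hb (by simpa using hr.symm)
    obtain ⟨s, hs⟩ := IsSepClosed.exists_pow_nat_eq ((a ^ 2 * B δ δ + B u u) / B δ δ) 2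
    have hs0 : s ≠ 0 := fun h1 => by
      rw [h1] at hs
      exact div_ne_zero h0 hδ0 (by simpa using hs.symm)
    obtain ⟨t, hc, hsn⟩ := exists_cos_sin (a := a / s) (b := r / (B δ δ * s)) (by
      rw [div_pow, div_pow, mul_pow, hr, hs]
      field_simp)
    have hA : Skew B V (r⁻¹ • wd B 1 δ u) := by
      rw [← wd_smul_right]
      exact h.skew_wd hδ (V.smul_mem _ hu)
    have h3 : (r⁻¹ • wd B 1 δ u) * (r⁻¹ • wd B 1 δ u) * (r⁻¹ • wd B 1 δ u) =
        -(r⁻¹ • wd B 1 δ u) := by
      ext x
      simp only [LinearMap.smul_apply, Module.End.mul_apply, LinearMap.neg_apply, wd_apply,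
        map_sub, map_smul, huδ, hδu]
      match_scalars
      · field_simp
        linear_combination (B x δ) * hr
      · field_simp
        linear_combination (-B x u) * hr
    have h4 := (hg.map h (hA.isom (s := Complex.sin t) (c := 1 - Complex.cos t) (k := -1)
      (by rw [h3, neg_one_smul]) (by linear_combination -Complex.sin_sq_add_cos_sq t))
      (((hT.lie δ hδ u hu).smul r⁻¹).fixes_of_rot h3 t)).smul hs0
    convert h4.fixes using 2
    simp only [LinearMap.add_apply, LinearMap.smul_apply, Module.End.mul_apply,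
      Module.End.one_apply, wd_apply, map_sub, map_smul, huδ, hδu, hc, hsn]
    match_scalars
    · field_simp
      linear_combination (a - s) * B δ δ * hr
    · field_simp
      ring

theorem IsForm.exists_ne (h : IsForm B V 1) (hV : V ≠ ⊥) : ∃ v ∈ V, B v v ≠ 0 := by
  by_contra hcon
  push Not at hcon
  refine hV (eq_bot_iff.2 fun u hu => h.nondeg u hu fun v hv => ?_)
  have := hcon (u + v) (V.add_mem hu hv)
  simp only [map_add, LinearMap.add_apply, hcon u hu, hcon v hv, h.comm hu hv] at this
  linear_combination this / 2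

theorem IsForm.perp (h : IsForm B V 1) {δ : H} (hδ : δ ∈ V) (h0 : B δ δ ≠ 0) :
    IsForm B (V ⊓ LinearMap.ker (B.flip δ)) 1 := by
  refine ⟨h.sq, fun u hu v hv => h.symm u hu.1 v hv.1, fun u hu h1 => ?_⟩
  refine h.nondeg u hu.1 fun v hv => ?_
  have h2 := h1 (v - (B v δ / B δ δ) • δ)
    ⟨V.sub_mem hv (V.smul_mem _ hδ), by simp [div_mul_cancel₀ _ h0]⟩
  have h3 : B u δ = 0 := hu.2
  rw [map_sub, map_smul, LinearMap.sub_apply, LinearMap.smul_apply, h.comm hδ hu.1, h3,
    smul_zero, sub_zero] at h2
  exact h2

omit [Fintype ι] [DecidableEq ι] in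
/-- Cartan-Dieudonne. -/
theorem fixes_of_refl [FiniteDimensional ℂ H] (h : IsForm B V 1)
    (hT : ∀ v ∈ V, B v v ≠ 0 → Fixes (refl B v) T) {g : Module.End ℂ H} (hg : Isom B V g) :
    Fixes g T := by
  induction hn : Module.finrank ℂ V using Nat.strong_induction_on generalizing V g with
  | _ n ih =>
    by_cases hV : V = ⊥
    · subst hV
      rw [hg.eq_one]
      exact Fixes.one
    obtain ⟨v, hv, h0⟩ := h.exists_ne hV
    have key : ∀ g : Module.End ℂ H, Isom B V g → g v = v → Fixes g T := by
      intro g hg hgv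
      refine ih _ ?_ (h.perp hv h0) (fun w hw => hT w hw.1) ⟨fun x => ⟨hg.mem x, ?_⟩,
        fun x w hw => hg.isom x w hw.1⟩ rfl
      · rw [← hn]
        refine Submodule.finrank_lt_finrank_of_lt (lt_of_le_of_ne inf_le_left fun h1 => h0 ?_)
        exact (h1.symm ▸ hv : v ∈ V ⊓ LinearMap.ker (B.flip v)).2
      · have := hg.isom x v hv
        rw [hgv] at this
        simp [this]
    have hgv := hg.map_mem hv
    have h1 : B (g v) (g v) = B v v := hg.isom v v hv
    have h2 : B v (g v) = B (g v) v := h.comm hv hgv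
    by_cases h3 : B (g v - v) (g v - v) = 0
    · have h4 : B (g v) v = B v v := by
        simp only [map_sub, LinearMap.sub_apply, h1, h2] at h3
        linear_combination -h3 / 2
      have h5 : B (g v + v) (g v + v) = 4 * B v v := by
        simp only [map_add, LinearMap.add_apply, h1, h2, h4]
        ring
      have h6 : B (g v + v) (g v + v) ≠ 0 := by rw [h5]; simpa using h0
      have h7 := V.add_mem hgv hv
      refine ((hT v hv h0).mul (hT _ h7 h6)).of_mul_left
        (key _ (((h.isom_refl hv h0).mul (h.isom_refl h7 h6)).mul hg) ?_)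
      rw [Module.End.mul_apply, Module.End.mul_apply, refl_apply (g v + v), h5, map_add, h1, h4]
      have : 2 / (4 * B v v) * (B v v + B v v) = 1 := by
        field_simp
        ring
      rw [this, one_smul, sub_add_cancel_left, map_neg, refl_apply, div_mul_cancel₀ _ h0]
      module
    · have h7 := V.sub_mem hgv hv
      refine (hT _ h7 h3).of_mul_left (key _ ((h.isom_refl h7 h3).mul hg) ?_)
      rw [Module.End.mul_apply, refl_apply]
      have : 2 / B (g v - v) (g v - v) * B (g v) (g v - v) = 1 := by
        rw [div_mul_eq_mul_div, div_eq_one_iff_eq h3]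
        simp only [map_sub, LinearMap.sub_apply, h1, h2]
        ring
      rw [this, one_smul, sub_sub_cancel]

theorem IsForm.isom_transvection (h : IsForm B V (-1)) {u : H} (hu : u ∈ V) (c : ℂ) :
    Isom B V (1 + c • rk B u u) := by
  refine ⟨fun x => by simpa using V.smul_mem _ (V.smul_mem _ hu), fun x v hv => ?_⟩
  simp only [LinearMap.add_apply, LinearMap.smul_apply, Module.End.one_apply, rk_apply, map_add,
    map_smul, smul_eq_mul, h.self_eq_zero hu, h.symm u hu v hv]
  ring

theorem LieInv.fixes_transvection (h : IsForm B V (-1)) (hT : LieInv B V (-1) T) {u : H}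
    (hu : u ∈ V) (c : ℂ) : Fixes (1 + c • rk B u u) T := by
  have h1 := hT u hu u hu
  rw [wd_self_skew] at h1
  refine (h1.of_smul two_ne_zero).fixes_of_sq ?_ c
  ext x
  simp [h.self_eq_zero hu]

omit [Fintype ι] [DecidableEq ι] in
/-- The symplectic group is generated by transvections. -/
theorem fixes_of_transvection [FiniteDimensional ℂ H] (h : IsForm B V (-1))
    (hT : ∀ u ∈ V, ∀ c : ℂ, Fixes (1 + c • rk B u u) T) {g : Module.End ℂ H} (hg : Isom B V g) :
    Fixes g T := by
  induction hn : Module.finrank ℂ V using Nat.strong_induction_on generalizing V g with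
  | _ n ih =>
    by_cases hV : V = ⊥
    · subst hV
      rw [hg.eq_one]
      exact Fixes.one
    obtain ⟨u, hu, hu0⟩ := Submodule.exists_mem_ne_zero_of_ne_bot hV
    have hex : ∀ x ∈ V, x ≠ 0 → ∃ z ∈ V, B z x ≠ 0 := fun x hx hx0 => by
      by_contra hcon
      push Not at hcon
      exact hx0 (h.nondeg x hx hcon)
    obtain ⟨w, hw, hwu⟩ := hex u hu hu0
    have huw : B u w = -B w u := by rw [h.symm u hu w hw, neg_one_mul]
    -- moving `x` to `y` by one transvection
    have mv : ∀ x ∈ V, ∀ y ∈ V, B x y ≠ 0 → ∃ s : Module.End ℂ H, Isom B V s ∧ Fixes s T ∧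
        s x = y ∧ ∀ z, B z (y - x) = 0 → s z = z := by
      intro x hx y hy hxy
      refine ⟨1 + (B x y)⁻¹ • rk B (y - x) (y - x), h.isom_transvection (V.sub_mem hy hx) _,
        hT _ (V.sub_mem hy hx) _, ?_, fun z hz => by simp [hz]⟩
      simp [h.self_eq_zero hx, smul_smul, inv_mul_cancel₀ hxy]
    have key2 : ∀ g : Module.End ℂ H, Isom B V g → g u = u → g w = w → Fixes g T := by
      intro g hg hgu hgw
      let V' := V ⊓ LinearMap.ker (B.flip u) ⊓ LinearMap.ker (B.flip w)
      have hV' : ∀ x, x ∈ V' ↔ x ∈ V ∧ B x u = 0 ∧ B x w = 0 := fun x => by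
        simp [V', and_assoc]
      have h' : IsForm B V' (-1) := by
        refine ⟨h.sq, fun a ha b hb => h.symm a ha.1.1 b hb.1.1, fun a ha h1 => ?_⟩
        obtain ⟨ha1, ha2, ha3⟩ := (hV' a).1 ha
        refine h.nondeg a ha1 fun v hv => ?_
        have h2 := h1 (v - (B v u / B w u) • w + (B v w / B w u) • u) ((hV' _).2
          ⟨V.add_mem (V.sub_mem hv (V.smul_mem _ hw)) (V.smul_mem _ hu), by
            simp [div_mul_cancel₀ _ hwu, h.self_eq_zero hu], by
            simp [div_mul_cancel₀ _ hwu, h.self_eq_zero hw, huw]⟩)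
        simpa [h.symm w hw a ha1, h.symm u hu a ha1, ha2, ha3] using h2
      refine ih _ ?_ h' (fun x hx => hT x hx.1.1) ⟨fun x => (hV' _).2 ⟨hg.mem x, ?_, ?_⟩,
        fun x v hv => hg.isom x v hv.1.1⟩ rfl
      · rw [← hn]
        refine Submodule.finrank_lt_finrank_of_lt (lt_of_le_of_ne
          (inf_le_left.trans inf_le_left) fun h1 => hwu ?_)
        exact ((hV' w).1 (h1.symm ▸ hw)).2.1
      · have := hg.isom x u hu
        rw [hgu] at this
        simp [this]
      · have := hg.isom x w hw
        rw [hgw] at this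
        simp [this]
    have key1 : ∀ g : Module.End ℂ H, Isom B V g → g u = u → Fixes g T := by
      intro g hg hgu
      have hy := hg.map_mem hw
      have h1 : B u (g w) = B u w := by
        have := hg.isom u w hw
        rwa [hgu] at this
      have step : ∀ g : Module.End ℂ H, Isom B V g → g u = u → B (g w) w ≠ 0 → Fixes g T := by
        intro g hg hgu hne
        obtain ⟨s, hs1, hs2, hs3, hs4⟩ := mv _ (hg.map_mem hw) w hw hne
        refine hs2.of_mul_left (key2 _ (hs1.mul hg) ?_ hs3)
        rw [Module.End.mul_apply, hgu]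
        refine hs4 u ?_
        have := hg.isom u w hw
        rw [hgu] at this
        simp [this]
      by_cases h2 : B (g w) w = 0
      · obtain ⟨s, hs1, hs2, hs3, hs4⟩ := mv _ hy (g w + u) (V.add_mem hy hu) (by
          rw [map_add, h.self_eq_zero hy, zero_add, h.symm _ hy u hu, h1, huw]
          simpa using hwu)
        refine hs2.of_mul_left (step _ (hs1.mul hg) ?_ ?_)
        · rw [Module.End.mul_apply, hgu]
          exact hs4 u (by simp [h.self_eq_zero hu])
        · rw [Module.End.mul_apply, hs3, map_add, LinearMap.add_apply, h2, zero_add, huw]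
          simpa using hwu
      · exact step g hg hgu h2
    have step : ∀ g : Module.End ℂ H, Isom B V g → B (g u) u ≠ 0 → Fixes g T := by
      intro g hg hne
      obtain ⟨s, hs1, hs2, hs3, -⟩ := mv _ (hg.map_mem hu) u hu hne
      exact hs2.of_mul_left (key1 _ (hs1.mul hg) hs3)
    by_cases h1 : B (g u) u = 0
    · have hx := hg.map_mem hu
      obtain ⟨z, hz, hz1, hz2⟩ : ∃ z ∈ V, B (g u) z ≠ 0 ∧ B z u ≠ 0 := by
        have h2 : B (g u) (g w) ≠ 0 := by
          rw [hg.isom u w hw, huw]
          simpa using hwu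
        by_cases h3 : B (g u) w = 0
        · by_cases h4 : B (g w) u = 0
          · exact ⟨w + g w, V.add_mem hw (hg.map_mem hw), by simpa [h3] using h2,
              by simpa [h4] using hwu⟩
          · exact ⟨g w, hg.map_mem hw, h2, h4⟩
        · exact ⟨w, hw, h3, hwu⟩
      obtain ⟨s, hs1, hs2, hs3, -⟩ := mv _ hx z hz hz1
      exact hs2.of_mul_left (step _ (hs1.mul hg) (by rwa [Module.End.mul_apply, hs3]))
    · exact step g hg h1

/-- An invariant form is fixed by the whole isometry group of `V`. -/
theorem IsInv.fixes [FiniteDimensional ℂ H] (h : IsForm B V ε) (hT : IsInv B V ε T)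
    {g : Module.End ℂ H} (hg : Isom B V g) : Fixes g T := by
  rcases mul_self_eq_one_iff.1 h.sq with rfl | rfl
  · exact fixes_of_refl h (fun v hv h0 => hT.fixes_refl h hv h0) hg
  · exact fixes_of_transvection h (fun u hu c => hT.lie.fixes_transvection h hu c) hg

/-- The invariance passes to non degenerate subspaces. -/
theorem IsInv.mono [FiniteDimensional ℂ H] (h : IsForm B V ε) (hT : IsInv B V ε T)
    {W : Submodule ℂ H} (hW : W ≤ V) (h' : IsForm B W ε) : IsInv B W ε T := by
  refine ⟨fun u hu v hv => hT.lie u (hW hu) v (hW hv), fun h1 h2 => ?_⟩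
  subst h1
  obtain ⟨v, hv, h0⟩ := h'.exists_ne h2
  exact ⟨v, hv, h0, hT.fixes_refl h (hW hv) h0⟩

/-- Conversely a form fixed by all isometries is invariant. -/
theorem isInv_of_fixes (h : IsForm B V ε) (hT : ∀ g, Isom B V g → Fixes g T) : IsInv B V ε T := by
  rcases mul_self_eq_one_iff.1 h.sq with rfl | rfl
  · refine ⟨?_, fun _ h2 => ?_⟩
    · have key : ∀ a ∈ V, B a a ≠ 0 → ∀ b ∈ V, Kills (wd B 1 a b) T := by
        intro a ha ha0 b hb
        have hba : B b a = B a b := h.comm hb ha
        let S : Set ℂ := {t | 1 + t * (2 * B a b / B a a) + t ^ 2 * (B b b / B a a) ≠ 0}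
        have hS : S.Infinite := by
          have hp : (1 + Polynomial.X * Polynomial.C (2 * B a b / B a a) +
              Polynomial.X ^ 2 * Polynomial.C (B b b / B a a) : Polynomial ℂ) ≠ 0 := fun h0 => by
            simpa using congrArg (Polynomial.eval 0) h0
          refine (Polynomial.finite_setOfPred_isRoot hp).infinite_compl.mono fun t ht => ?_
          intro h0
          refine ht ?_
          simp only [Set.mem_ofPred_eq, Polynomial.IsRoot.def, Polynomial.eval_add,
            Polynomial.eval_mul, Polynomial.eval_one, Polynomial.eval_X, Polynomial.eval_C,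
            Polynomial.eval_pow]
          exact h0
        have h4 := kills_of_infinite T
          (((2 * B a b / B a a) • 1 - (2 / B a a) • (rk B a b + rk B b a)) * refl B a)
          (((B b b / B a a) • 1 - (2 / B a a) • rk B b b) * refl B a) (2 * B a b / B a a)
          (B b b / B a a) hS (by
            intro t ht v
            have hq : B (a + t • b) (a + t • b) =
                (1 + t * (2 * B a b / B a a) + t ^ 2 * (B b b / B a a)) * B a a := by
              simp only [map_add, map_smul, LinearMap.add_apply, LinearMap.smul_apply,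
                smul_eq_mul, hba]
              field_simp
              ring
            have hne : B (a + t • b) (a + t • b) ≠ 0 := hq ▸ mul_ne_zero ht ha0
            rw [← hT _ ((h.isom_refl (V.add_mem ha (V.smul_mem t hb)) hne).mul
              (h.isom_refl ha ha0)) v, ← Finset.card_univ, ← Finset.prod_const,
              ← smul_eq_mul (∏ _i : ι, _), ← T.map_smul_univ]
            congr 1
            funext i
            have h5 : v i = refl B a (refl B a (v i)) := by
              rw [← Module.End.mul_apply, refl_mul_self ha0, Module.End.one_apply]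
            simp only [Module.End.mul_apply]
            generalize refl B a (v i) = y at h5
            have h6 : ∀ z : ℂ, (1 + t * (2 * B a b / B a a) + t ^ 2 * (B b b / B a a)) *
                (2 / ((1 + t * (2 * B a b / B a a) + t ^ 2 * (B b b / B a a)) * B a a) * z) =
                2 / B a a * z := by
              intro z
              have ht' : 1 + t * (2 * B a b / B a a) + t ^ 2 * (B b b / B a a) ≠ 0 := ht
              generalize (1 + t * (2 * B a b / B a a) + t ^ 2 * (B b b / B a a)) = q at ht'
              field_simp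
            rw [h5, refl_apply (a + t • b), hq, refl_apply a, smul_sub _ y, smul_smul, h6]
            simp only [LinearMap.sub_apply, LinearMap.smul_apply, LinearMap.add_apply,
              Module.End.one_apply, rk_apply, map_add, map_smul, smul_eq_mul]
            module)
        refine Kills.of_smul (c := 2 / B a a) (div_ne_zero (by simp) ha0) ?_
        convert h4 using 1
        ext x
        simp only [LinearMap.sub_apply, LinearMap.smul_apply, LinearMap.add_apply,
          Module.End.mul_apply, Module.End.one_apply, rk_apply, refl_apply, wd_apply, map_sub,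
          map_smul]
        match_scalars
        · field_simp
          ring
        · field_simp
          ring
        · ring
      intro u hu v hv
      by_cases hV : V = ⊥
      · have h1 : v = 0 := (Submodule.mem_bot ℂ).1 (hV ▸ hv)
        rw [h1, wd_zero_right]
        exact Kills.zero
      obtain ⟨a, ha, ha0⟩ := h.exists_ne hV
      exact h.kills_wd_of_mem ha ha0 ⟨hu, key a ha ha0 u hu⟩ ⟨hv, key a ha ha0 v hv⟩
    · obtain ⟨v, hv, h0⟩ := h.exists_ne h2
      exact ⟨v, hv, h0, hT _ (h.isom_refl hv h0)⟩
  · refine ⟨fun u hu v hv => ?_, fun h1 => absurd h1 (by norm_num)⟩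
    have key : ∀ a ∈ V, Kills (wd B (-1) a a) T := fun a ha => by
      rw [wd_self_skew]
      exact (kills_of_transvection h ha one_ne_zero (hT _ (h.isom_transvection ha 1))).smul 2
    have h1 := ((key _ (V.add_mem hu hv)).sub (key u hu)).sub (key v hv)
    rw [wd_add_left, wd_add_right, wd_add_right, wd_swap (by ring) u v] at h1
    refine Kills.of_smul two_ne_zero ?_
    convert h1 using 1
    module

end Vale.Agent.P269.Inv
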