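import Vale.Agent.P269.Inv.Orth

/-!
# P269, invariant theory: the first fundamental theorem, in the form
`an invariant form all of whose contractions vanish is zero` (helper4)

The proof is the Casimir identity: `∑ E_ba E_ab` acts on a traceless invariant form of degree `n`
by `ε n`, and it is a non negative operator.
-/

open Function

namespace Vale.Agent.P269.Inv

variable {ι H : Type*} [Fintype ι] [DecidableEq ι] [AddCommGroup H] [Module ℂ H]
variable {B : H →ₗ[ℂ] H →ₗ[ℂ] ℂ} {V : Submodule ℂ H} {ε : ℂ} {T : MF ι H}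

/-- `∑ e a ⊗ f a` is the canonical tensor (the diagonal class) of `V`. -/
structure Frame (B : H →ₗ[ℂ] H →ₗ[ℂ] ℂ) (V : Submodule ℂ H) {κ : Type*} [Fintype κ]
    (e f : κ → H) : Prop where
  e_mem : ∀ a, e a ∈ V
  f_mem : ∀ a, f a ∈ V
  expand : ∀ x ∈ V, ∑ a, B x (f a) • e a = x

section Frames

variable {κ κ' : Type*} [Fintype κ] [Fintype κ'] {e f : κ → H} {e' f' : κ' → H}

theorem Frame.pairing (hF : Frame B V e f) {x : H} (hx : x ∈ V) (y : H) :
    ∑ a, B x (f a) * B (e a) y = B x y := by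
  conv_rhs => rw [← hF.expand x hx]
  simp [LinearMap.sum_apply]

theorem Frame.expand' (h : IsForm B V ε) (hF : Frame B V e f) {y : H} (hy : y ∈ V) :
    ∑ a, B (e a) y • f a = y := by
  rw [← sub_eq_zero]
  refine h.nondeg _ (V.sub_mem (V.sum_mem fun a _ => V.smul_mem _ (hF.f_mem a)) hy) fun v hv => ?_
  rw [map_sub, map_sum, ← hF.pairing hv y, sub_eq_zero]
  refine Finset.sum_congr rfl fun a _ => ?_
  rw [map_smul, smul_eq_mul, mul_comm]

/-- The contraction does not depend on the frame. -/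
theorem Frame.sum_eq {M : Type*} [AddCommGroup M] [Module ℂ M] (h : IsForm B V ε)
    (hF : Frame B V e f) (hF' : Frame B V e' f') (S : H →ₗ[ℂ] H →ₗ[ℂ] M) :
    ∑ a, S (e a) (f a) = ∑ b, S (e' b) (f' b) := by
  have h1 : ∀ a, S (e a) (f a) = ∑ b, B (e a) (f' b) • S (e' b) (f a) := by
    intro a
    conv_lhs => rw [← hF'.expand (e a) (hF.e_mem a)]
    simp [LinearMap.sum_apply]
  have h2 : ∀ b, S (e' b) (f' b) = ∑ a, B (e a) (f' b) • S (e' b) (f a) := by
    intro b
    conv_lhs => rw [← hF.expand' h (hF'.f_mem b)]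
    simp
  simp only [h1]
  rw [Finset.sum_comm]
  exact Finset.sum_congr rfl fun b _ => (h2 b).symm

/-- The opposite frame. -/
theorem Frame.swap (h : IsForm B V ε) (hF : Frame B V e f) : Frame B V f fun a => ε • e a := by
  refine ⟨hF.f_mem, fun a => V.smul_mem _ (hF.e_mem a), fun x hx => ?_⟩
  conv_rhs => rw [← hF.expand' h hx]
  refine Finset.sum_congr rfl fun a _ => ?_
  rw [map_smul, smul_eq_mul, ← h.symm _ (hF.e_mem a) x hx]

theorem exists_frame [FiniteDimensional ℂ H] (h : IsForm B V ε) :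
    ∃ (n : ℕ) (e f : Fin n → H), Frame B V e f ∧ ∀ a b, B (e a) (f b) = if b = a then 1 else 0 := by
  let B' : LinearMap.BilinForm ℂ V := LinearMap.BilinForm.restrict B V
  have hB' : ∀ x y : V, B' x y = B x y := fun _ _ => rfl
  have hn : B'.Nondegenerate := by
    refine ⟨fun x hx => Subtype.ext (h.nondeg x x.2 fun v hv => ?_),
      fun x hx => Subtype.ext (h.nondeg x x.2 fun v hv => hx ⟨v, hv⟩)⟩
    rw [h.symm v hv x x.2]
    exact mul_eq_zero_of_right _ (hx ⟨v, hv⟩)
  let b := Module.finBasis ℂ V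
  refine ⟨_, fun a => B'.dualBasis hn b a, fun a => b a, ⟨fun a => Subtype.prop _,
    fun a => Subtype.prop _, fun x hx => ?_⟩, fun a c => B'.apply_dualBasis_left hn b a c⟩
  have := congrArg Subtype.val ((B'.dualBasis hn b).sum_repr ⟨x, hx⟩)
  simp only [LinearMap.BilinForm.dualBasis_repr_apply, hB'] at this
  simpa using this

/-- A frame adapted to a non isotropic vector. -/
theorem exists_frame_refl [FiniteDimensional ℂ H] (h : IsForm B V 1) {δ : H} (hδ : δ ∈ V)
    (h0 : B δ δ ≠ 0) : ∃ (n : ℕ) (e f : Option (Fin n) → H), Frame B V e f ∧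
      (∀ a b, B (e a) (f b) = if b = a then 1 else 0) ∧ e none = δ ∧
      ∀ a, B (e (some a)) δ = 0 := by
  let V' : Submodule ℂ H := V ⊓ LinearMap.ker (B.flip δ)
  have hV' : ∀ x, x ∈ V' ↔ x ∈ V ∧ B x δ = 0 := fun x => by simp [V']
  have hpr : ∀ x ∈ V, x - (B x δ / B δ δ) • δ ∈ V' := fun x hx =>
    (hV' _).2 ⟨V.sub_mem hx (V.smul_mem _ hδ), by simp [div_mul_cancel₀ _ h0]⟩
  have h' : IsForm B V' 1 := by
    refine ⟨h.sq, fun u hu v hv => h.symm u hu.1 v hv.1, fun u hu h1 => ?_⟩
    refine h.nondeg u hu.1 fun v hv => ?_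
    have h2 := h1 _ (hpr v hv)
    rw [map_sub, map_smul, LinearMap.sub_apply, LinearMap.smul_apply, h.comm hδ hu.1,
      ((hV' u).1 hu).2, smul_zero, sub_zero] at h2
    exact h2
  obtain ⟨n, e, f, hF, hd⟩ := exists_frame h'
  have he : ∀ a, B (e a) δ = 0 := fun a => ((hV' _).1 (hF.e_mem a)).2
  have hf : ∀ a, B δ (f a) = 0 := fun a => by
    rw [h.comm hδ (hF.f_mem a).1, ((hV' _).1 (hF.f_mem a)).2]
  refine ⟨n, fun a => a.elim δ e, fun a => a.elim ((B δ δ)⁻¹ • δ) f, ⟨?_, ?_, fun x hx => ?_⟩,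
    ?_, rfl, he⟩
  · rintro (_ | a)
    exacts [hδ, (hF.e_mem a).1]
  · rintro (_ | a)
    exacts [V.smul_mem _ hδ, (hF.f_mem a).1]
  · have h1 := hF.expand _ (hpr x hx)
    simp only [map_sub, map_smul, LinearMap.sub_apply, LinearMap.smul_apply, hf, smul_zero,
      sub_zero] at h1
    rw [Fintype.sum_option]
    simp only [Option.elim_none, Option.elim_some, h1, map_smul, smul_eq_mul]
    rw [div_eq_inv_mul]
    abel
  · rintro (_ | a) (_ | b)
    · simp [inv_mul_cancel₀ h0]
    · simp [hf]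
    · simp [he]
    · simp [hd]

end Frames

/-! ### Coordinates -/

section Coord

variable {κ : Type*} [Fintype κ] [DecidableEq κ]

/-- The matrix unit acting on coordinates. -/
noncomputable def dE (a b : κ) (t : (ι → κ) → ℂ) (β : ι → κ) : ℂ :=
  ∑ l, if β l = b then t (update β l a) else 0

theorem dE_adj (a b : κ) (u w : (ι → κ) → ℂ) :
    ∑ β, (starRingEnd ℂ) (u β) * dE a b w β = ∑ β, (starRingEnd ℂ) (dE b a u β) * w β := by
  simp only [dE, Finset.mul_sum, map_sum, Finset.sum_mul]
  rw [Finset.sum_comm, Finset.sum_comm (s := Finset.univ (α := ι → κ))]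
  refine Finset.sum_congr rfl fun l _ => ?_
  simp only [mul_ite, mul_zero, apply_ite (starRingEnd ℂ), map_zero, ite_mul, zero_mul]
  rw [← Finset.sum_filter, ← Finset.sum_filter]
  refine Finset.sum_bij' (fun β _ => update β l a) (fun β _ => update β l b)
    (fun β _ => by simp) (fun β _ => by simp) ?_ ?_ ?_
  · intro β hβ
    have : β l = b := by simpa using hβ
    rw [update_idem, ← this, update_eq_self]
  · intro β hβ
    have : β l = a := by simpa using hβ
    rw [update_idem, ← this, update_eq_self]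
  · intro β hβ
    have : β l = b := by simpa using hβ
    rw [update_idem, ← this, update_eq_self]

omit [Fintype κ] in
theorem dE_self (a : κ) (t : (ι → κ) → ℂ) (β : ι → κ) :
    dE a a t β = ((Finset.univ.filter fun l => β l = a).card : ℂ) * t β := by
  rw [dE, ← Finset.sum_filter, Finset.sum_congr rfl (g := fun _ => t β), Finset.sum_const,
    nsmul_eq_mul]
  intro l hl
  have : β l = a := by simpa using hl
  rw [← this, update_eq_self]

theorem casimir_norm (t : (ι → κ) → ℂ) {c : ℂ}
    (h : ∀ β, ∑ a, ∑ b, dE b a (dE a b t) β = c * t β) :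
    ((∑ a, ∑ b, ∑ β, Complex.normSq (dE a b t β) : ℝ) : ℂ) =
      c * (∑ β, Complex.normSq (t β) : ℝ) := by
  have h1 : ∑ β, (starRingEnd ℂ) (t β) * ∑ a, ∑ b, dE b a (dE a b t) β =
      ∑ a, ∑ b, ∑ β, (starRingEnd ℂ) (dE a b t β) * dE a b t β := by
    simp only [Finset.mul_sum]
    rw [Finset.sum_comm]
    refine Finset.sum_congr rfl fun a _ => ?_
    rw [Finset.sum_comm]
    exact Finset.sum_congr rfl fun b _ => dE_adj b a t (dE a b t)
  push_cast
  simp only [Complex.normSq_eq_conj_mul_self]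
  rw [← h1, Finset.mul_sum]
  refine Finset.sum_congr rfl fun β _ => ?_
  rw [h β]
  ring

theorem eq_zero_of_casimir_neg [Nonempty ι] (t : (ι → κ) → ℂ)
    (h : ∀ β, ∑ a, ∑ b, dE b a (dE a b t) β = -1 * (Fintype.card ι : ℂ) * t β) : t = 0 := by
  have h1 := casimir_norm t h
  have h2 : ∑ a, ∑ b, ∑ β, Complex.normSq (dE a b t β) =
      -1 * (Fintype.card ι : ℝ) * ∑ β, Complex.normSq (t β) := by exact_mod_cast h1
  have h3 : 0 ≤ ∑ a, ∑ b, ∑ β, Complex.normSq (dE a b t β) :=
    Finset.sum_nonneg fun _ _ => Finset.sum_nonneg fun _ _ => Finset.sum_nonneg fun _ _ =>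
      Complex.normSq_nonneg _
  have h4 : 0 ≤ ∑ β, Complex.normSq (t β) := Finset.sum_nonneg fun _ _ => Complex.normSq_nonneg _
  have h5 : (0 : ℝ) < Fintype.card ι := by exact_mod_cast Fintype.card_pos
  have h6 : ∑ β, Complex.normSq (t β) = 0 := by nlinarith
  funext β
  exact Complex.normSq_eq_zero.1 ((Finset.sum_eq_zero_iff_of_nonneg
    fun _ _ => Complex.normSq_nonneg _).1 h6 β (Finset.mem_univ β))

theorem eq_zero_of_casimir_pos [Nonempty ι] (t : (ι → κ) → ℂ)
    (h : ∀ β, ∑ a, ∑ b, dE b a (dE a b t) β = 1 * (Fintype.card ι : ℂ) * t β) (o : κ)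
    (ho : ∀ β, t β = (-1) ^ (Finset.univ.filter fun l => β l = o).card * t β) : t = 0 := by
  have h1 := casimir_norm t h
  have h2 : ∑ a, ∑ b, ∑ β, Complex.normSq (dE a b t β) =
      1 * (Fintype.card ι : ℝ) * ∑ β, Complex.normSq (t β) := by exact_mod_cast h1
  let m : κ → (ι → κ) → ℕ := fun a β => (Finset.univ.filter fun l => β l = a).card
  have hm : ∀ β, ∑ a, (m a β : ℝ) = Fintype.card ι := by
    intro β
    have := Finset.card_eq_sum_card_fiberwise (f := β) (s := Finset.univ) (t := Finset.univ)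
      fun _ _ => Finset.mem_coe.2 (Finset.mem_univ _)
    rw [← Finset.card_univ, this]
    push_cast
    rfl
  have h3 : ∀ a, ∑ b, ∑ β, Complex.normSq (dE a b t β) =
      ∑ β, (m a β : ℝ) ^ 2 * Complex.normSq (t β) +
        ∑ b ∈ Finset.univ.erase a, ∑ β, Complex.normSq (dE a b t β) := by
    intro a
    rw [← Finset.add_sum_erase _ _ (Finset.mem_univ a)]
    congr 1
    refine Finset.sum_congr rfl fun β _ => ?_
    rw [dE_self, Complex.normSq_mul, Complex.normSq_natCast, sq]
  have h4 : 1 * (Fintype.card ι : ℝ) * ∑ β, Complex.normSq (t β) =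
      ∑ a, ∑ β, (m a β : ℝ) * Complex.normSq (t β) := by
    rw [Finset.sum_comm, one_mul, Finset.mul_sum]
    refine Finset.sum_congr rfl fun β _ => ?_
    rw [← Finset.sum_mul, hm]
  have h5 : ∑ a, (∑ β, ((m a β : ℝ) ^ 2 - m a β) * Complex.normSq (t β) +
      ∑ b ∈ Finset.univ.erase a, ∑ β, Complex.normSq (dE a b t β)) = 0 := by
    simp only [h3] at h2
    rw [h4, ← sub_eq_zero, ← Finset.sum_sub_distrib] at h2
    rw [← h2]
    refine Finset.sum_congr rfl fun a _ => ?_
    simp only [sub_mul, Finset.sum_sub_distrib]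
    ring
  have h6 : ∀ a β, 0 ≤ ((m a β : ℝ) ^ 2 - m a β) * Complex.normSq (t β) := by
    intro a β
    refine mul_nonneg ?_ (Complex.normSq_nonneg _)
    have : m a β ≤ m a β ^ 2 := Nat.le_self_pow two_ne_zero _
    rw [sub_nonneg]
    exact_mod_cast this
  have h7 : ∀ a, 0 ≤ ∑ b ∈ Finset.univ.erase a, ∑ β, Complex.normSq (dE a b t β) := fun a =>
    Finset.sum_nonneg fun _ _ => Finset.sum_nonneg fun _ _ => Complex.normSq_nonneg _
  have h8 := (Finset.sum_eq_zero_iff_of_nonneg fun a _ =>
    add_nonneg (Finset.sum_nonneg fun β _ => h6 a β) (h7 a)).1 h5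
  have h9 := fun a => (add_eq_zero_iff_of_nonneg (Finset.sum_nonneg fun β _ => h6 a β) (h7 a)).1
    (h8 a (Finset.mem_univ a))
  have h10 : ∀ β, t β ≠ 0 → ∀ l, β l ≠ o := by
    intro β hβ l hl
    have h11 := (Finset.sum_eq_zero_iff_of_nonneg fun β _ => h6 o β).1 (h9 o).1 β
      (Finset.mem_univ β)
    have h12 : (m o β : ℝ) ^ 2 - m o β = 0 :=
      (mul_eq_zero.1 h11).resolve_right fun h0 => hβ (Complex.normSq_eq_zero.1 h0)
    have h13 : 0 < m o β := Finset.card_pos.2 ⟨l, by simpa using hl⟩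
    have h14 : m o β = 1 := by
      have h15 : (0 : ℝ) < m o β := by exact_mod_cast h13
      have h16 : (m o β : ℝ) = 1 := by nlinarith
      exact_mod_cast h16
    have h15 := ho β
    change t β = (-1) ^ m o β * t β at h15
    rw [h14] at h15
    exact hβ (by linear_combination h15 / 2)
  funext β
  by_contra hβ
  obtain ⟨l⟩ := ‹Nonempty ι›
  have h11 := (Finset.sum_eq_zero_iff_of_nonneg fun _ _ => Complex.normSq_nonneg _).1
    ((Finset.sum_eq_zero_iff_of_nonneg fun _ _ => Finset.sum_nonneg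
      fun _ _ => Complex.normSq_nonneg _).1 (h9 (β l)).2 o
      (Finset.mem_erase.2 ⟨(h10 β hβ l).symm, Finset.mem_univ _⟩)) (update β l o)
      (Finset.mem_univ _)
  rw [Complex.normSq_eq_zero, dE, Finset.sum_eq_single l] at h11
  · simp only [update_self, if_true, update_idem, update_eq_self] at h11
    exact hβ h11
  · intro l' _ hl'
    rw [update_of_ne hl', if_neg (h10 β hβ l')]
  · intro h
    exact absurd (Finset.mem_univ l) h

variable {e f : κ → H}

omit [Fintype κ] in
theorem der_rk_coord (hd : ∀ a b, B (e a) (f b) = if b = a then 1 else 0) (T : MF ι H) (a b : κ) :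
    (fun β : ι → κ => der (rk B (f b) (e a)) T fun l => e (β l)) =
      dE a b fun β => T fun l => e (β l) := by
  funext β
  rw [der_apply, dE]
  refine Finset.sum_congr rfl fun l _ => ?_
  rw [rk_apply, T.map_update_smul, hd]
  by_cases h : β l = b
  · rw [if_pos h, if_pos h.symm, one_smul]
    congr 1
    funext j
    by_cases hj : j = l
    · subst hj; simp
    · simp [update_of_ne hj]
  · rw [if_neg h, if_neg (Ne.symm h), zero_smul]

omit [Fintype ι] in
theorem update_smul_smul (T : MF ι H) (v : ι → H) {i j : ι} (hij : j ≠ i) (c d : ℂ) (x y : H) :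
    T (update (update v i (c • x)) j (d • y)) = c * d * T (update (update v i x) j y) := by
  rw [T.map_update_smul, update_comm hij.symm, T.map_update_smul, update_comm hij]
  simp only [smul_eq_mul]
  ring

omit [DecidableEq κ] in
theorem casimir_apply (h : IsForm B V ε) (hF : Frame B V e f) (hT : LieInv B V ε T) {v : ι → H}
    (hv : ∀ l, v l ∈ V)
    (hc : ∀ i j, j ≠ i → ∑ a, T (update (update v i (e a)) j (f a)) = 0) :
    ∑ a, ∑ b, der (rk B (f a) (e b)) (der (rk B (f b) (e a)) T) v =
      ε * (Fintype.card ι : ℂ) * T v := by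
  have h1 : ∀ a b, der (rk B (f b) (e a)) T = ε • der (rk B (e a) (f b)) T := by
    intro a b
    have := kills_iff.1 (hT _ (hF.f_mem b) _ (hF.e_mem a))
    rwa [wd, der_sub, der_smul, sub_eq_zero] at this
  simp only [h1, der_smul_right, smul_apply, smul_eq_mul, der_der_apply, ← Finset.mul_sum,
    Finset.sum_add_distrib]
  have h2 : ∑ a, ∑ b, der (rk B (e a) (f b) * rk B (f a) (e b)) T v =
      (Fintype.card ι : ℂ) * T v := by
    have h3 : ∑ a, ∑ b, der (rk B (e a) (f b) * rk B (f a) (e b)) T v =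
        der (∑ a, ∑ b, rk B (e a) (f b) * rk B (f a) (e b)) T v := by
      simp only [der_sum, sum_apply]
    have h4 : ∀ x ∈ V, (∑ a, ∑ b, rk B (e a) (f b) * rk B (f a) (e b)) x = x := by
      intro x hx
      simp only [LinearMap.sum_apply, Module.End.mul_apply, rk_apply, map_smul, smul_smul]
      rw [Finset.sum_comm]
      conv_rhs => rw [← hF.expand' h hx]
      refine Finset.sum_congr rfl fun b _ => ?_
      rw [← Finset.sum_smul]
      congr 1
      conv_rhs => rw [← hF.expand x hx]
      simp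
    rw [h3, der_apply]
    simp [h4 _ (hv _)]
  have h5 : ∑ a, ∑ b, ∑ i, ∑ j ∈ Finset.univ.erase i,
      T (update (update v i (rk B (f a) (e b) (v i))) j (rk B (e a) (f b) (v j))) = 0 := by
    refine Finset.sum_eq_zero fun a _ => ?_
    rw [Finset.sum_comm]
    refine Finset.sum_eq_zero fun i _ => ?_
    rw [Finset.sum_comm]
    refine Finset.sum_eq_zero fun j hj => ?_
    have hij := Finset.ne_of_mem_erase hj
    simp only [rk_apply, update_smul_smul T v hij, ← Finset.mul_sum, hc i j hij, mul_zero]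
  rw [h2, h5]
  ring

omit [DecidableEq κ] in
theorem Frame.map_eq_zero (hF : Frame B V e f) (hT : ∀ β : ι → κ, T (fun l => e (β l)) = 0)
    {v : ι → H} (hv : ∀ l, v l ∈ V) : T v = 0 := by
  have h1 : v = fun l => ∑ a, B (v l) (f a) • e a := funext fun l => (hF.expand _ (hv l)).symm
  rw [h1, map_curve T (fun _ a => e a) fun l a => B (v l) (f a)]
  simp [hT]

end Coord

/-- The bilinear map obtained by fixing all slots but two. -/
noncomputable def two (T : MF ι H) (v : ι → H) {i j : ι} (hij : j ≠ i) : H →ₗ[ℂ] H →ₗ[ℂ] ℂ :=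
  LinearMap.mk₂ ℂ (fun x y => T (update (update v i x) j y))
    (fun x x' y => by
      rw [update_comm hij.symm, T.map_update_add, update_comm hij, update_comm hij])
    (fun c x y => by rw [update_comm hij.symm, T.map_update_smul, update_comm hij])
    (fun x y y' => by rw [T.map_update_add]) (fun c x y => by rw [T.map_update_smul])

omit [Fintype ι] in
theorem Frame.con_eq {κ κ' : Type*} [Fintype κ] [Fintype κ'] {e f : κ → H} {e' f' : κ' → H}
    (h : IsForm B V ε) (hF : Frame B V e f) (hF' : Frame B V e' f') (T : MF ι H) (v : ι → H)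
    {i j : ι} (hij : j ≠ i) : ∑ a, T (update (update v i (e a)) j (f a)) =
      ∑ a, T (update (update v i (e' a)) j (f' a)) :=
  hF.sum_eq h hF' (two T v hij)

/-- `T` is invariant under the full isometry group of the form: killed by the Lie algebra, and in
the symmetric case also fixed by one reflection (there is nothing to ask if `V = 0`). -/
structure IsInv (B : H →ₗ[ℂ] H →ₗ[ℂ] ℂ) (V : Submodule ℂ H) (ε : ℂ) (T : MF ι H) : Prop where
  lie : LieInv B V ε T
  refl : ε = 1 → V ≠ ⊥ → ∃ δ ∈ V, B δ δ ≠ 0 ∧ Fixes (refl B δ) T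

/-- **First fundamental theorem**, traceless form: an invariant form in at least one variable
whose contractions vanish is zero on `V`. -/
theorem eq_zero_of_traceless [FiniteDimensional ℂ H] [Nonempty ι] (h : IsForm B V ε)
    (hT : IsInv B V ε T) {κ : Type*} [Fintype κ] {e f : κ → H} (hF : Frame B V e f)
    (hc : ∀ v : ι → H, (∀ l, v l ∈ V) → ∀ i j, j ≠ i →
      ∑ a, T (update (update v i (e a)) j (f a)) = 0)
    {v : ι → H} (hv : ∀ l, v l ∈ V) : T v = 0 := by
  have key : ∀ {κ' : Type} [Fintype κ'] [DecidableEq κ'] {e' f' : κ' → H}, Frame B V e' f' →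
      (∀ a b, B (e' a) (f' b) = if b = a then 1 else 0) → ∀ β : ι → κ',
      ∑ a, ∑ b, dE b a (dE a b fun β => T fun l => e' (β l)) β =
        ε * (Fintype.card ι : ℂ) * T fun l => e' (β l) := by
    intro κ' _ _ e' f' hF' hd β
    rw [← casimir_apply h hF' hT.lie (fun l => hF'.e_mem _) fun i j hij => by
      rw [hF'.con_eq h hF T _ hij]; exact hc _ (fun l => hF'.e_mem _) i j hij]
    refine Finset.sum_congr rfl fun a _ => Finset.sum_congr rfl fun b _ => ?_
    rw [← der_rk_coord hd, ← der_rk_coord hd]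
  rcases mul_self_eq_one_iff.1 h.sq with rfl | rfl
  · by_cases hV : V = ⊥
    · obtain ⟨l⟩ := ‹Nonempty ι›
      exact T.map_coord_zero l ((Submodule.mem_bot ℂ).1 (hV ▸ hv l))
    obtain ⟨δ, hδ, h0, hδT⟩ := hT.refl rfl hV
    obtain ⟨n, e', f', hF', hd, hn, hs⟩ := exists_frame_refl h hδ h0
    have h1 := eq_zero_of_casimir_pos _ (key hF' hd) none fun β => by
      have h2 : (fun l => refl B δ (e' (β l))) =
          fun l => (if β l = none then (-1 : ℂ) else 1) • e' (β l) := by
        funext l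
        rcases β l with _ | a
        · rw [refl_apply, hn, div_mul_cancel₀ _ h0, if_pos rfl]
          module
        · simp [refl_apply, hs]
      have h3 := hδT fun l => e' (β l)
      rw [h2, T.map_smul_univ, Finset.prod_ite, Finset.prod_const, Finset.prod_const_one, mul_one,
        smul_eq_mul] at h3
      exact h3.symm
    exact hF'.map_eq_zero (fun β => congrFun h1 β) hv
  · obtain ⟨n, e', f', hF', hd⟩ := exists_frame h
    have h1 := eq_zero_of_casimir_neg _ (key hF' hd)
    exact hF'.map_eq_zero (fun β => congrFun h1 β) hv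

end Vale.Agent.P269.Inv
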