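import Vale.Agent.P269.Inv.Group

/-!
# P269, invariant theory: infinite root systems over `ℂ`, without integrality (helper4)
-/

open Function Filter Topology

namespace Vale.Agent.P269.Inv

variable {ι H : Type*} [Fintype ι] [DecidableEq ι] [AddCommGroup H] [Module ℂ H]
variable {B : H →ₗ[ℂ] H →ₗ[ℂ] ℂ} {V : Submodule ℂ H} {Δ : Set H} {T : MF ι H}

/-- Version of `kills_of_infinite` with finitely many parameters. -/
theorem kills_of_card (T : MF ι H) (g₁ g₂ : Module.End ℂ H) (q₁ q₂ : ℂ) {S : Finset ℂ}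
    (hS : 2 * Fintype.card ι < S.card)
    (h : ∀ t ∈ S, ∀ v, T (fun i => v i + t • g₁ (v i) + t ^ 2 • g₂ (v i)) =
      (1 + t * q₁ + t ^ 2 * q₂) ^ Fintype.card ι * T v) :
    Kills (g₁ - q₁ • 1) T := by
  refine kills_of_infinite T g₁ g₂ q₁ q₂ Set.infinite_univ fun t _ v => ?_
  let x : ι → Fin 3 → H := fun i => ![v i, g₁ (v i), g₂ (v i)]
  have hx : ∀ t : ℂ, (fun i => ∑ a : Fin 3, t ^ (a : ℕ) • x i a) =
      fun i => v i + t • g₁ (v i) + t ^ 2 • g₂ (v i) := by
    intro t
    funext i
    simp [x, Fin.sum_univ_three]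
  let P : Polynomial ℂ := ∑ r : ι → Fin 3,
    Polynomial.C (T fun i => x i (r i)) * Polynomial.X ^ (∑ i, (r i : ℕ))
  have hP : ∀ t, P.eval t = T fun i => v i + t • g₁ (v i) + t ^ 2 • g₂ (v i) := by
    intro t
    rw [← hx, map_curve T x fun _ a => t ^ (a : ℕ)]
    simp only [P, Polynomial.eval_finsetSum, Polynomial.eval_mul, Polynomial.eval_C,
      Polynomial.eval_pow, Polynomial.eval_X, Finset.prod_pow_eq_pow_sum, mul_comm]
  have hPd : P.natDegree ≤ 2 * Fintype.card ι := by
    refine Polynomial.natDegree_sum_le_of_forall_le _ _ fun r _ => ?_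
    refine (Polynomial.natDegree_C_mul_X_pow_le _ _).trans ?_
    calc ∑ i, (r i : ℕ) ≤ ∑ _i : ι, 2 := Finset.sum_le_sum fun i _ => by have := (r i).2; omega
      _ = 2 * Fintype.card ι := by simp [mul_comm]
  let Q : Polynomial ℂ := (1 + Polynomial.X * Polynomial.C q₁ +
    Polynomial.X ^ 2 * Polynomial.C q₂) ^ Fintype.card ι * Polynomial.C (T v)
  have hQ : ∀ t, Q.eval t = (1 + t * q₁ + t ^ 2 * q₂) ^ Fintype.card ι * T v := by
    intro t
    simp only [Q, Polynomial.eval_mul, Polynomial.eval_pow, Polynomial.eval_add,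
      Polynomial.eval_one, Polynomial.eval_X, Polynomial.eval_C]
  have hQd : Q.natDegree ≤ 2 * Fintype.card ι := by
    refine (Polynomial.natDegree_mul_C_le _ _).trans (Polynomial.natDegree_pow_le.trans ?_)
    rw [mul_comm]
    refine Nat.mul_le_mul_right _ ?_
    compute_degree
  have hPQ : P = Q := Polynomial.eq_of_natDegree_lt_card_of_eval_eq' P Q S
    (fun t ht => by rw [hP, hQ, h t ht]) (lt_of_le_of_lt (max_le hPd hQd) hS)
  rw [← hP, hPQ, hQ]

/-- Many reflections in a plane. -/
theorem kills_wd_of_card (h : IsForm B V 1) {a b : H} (ha : Good B V T a) (hb : b ∈ V)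
    {S : Finset ℂ} (hS : 2 * Fintype.card ι < S.card) (hS' : ∀ t ∈ S, Good B V T (a + t • b)) :
    Kills (wd B 1 a b) T := by
  have ha0 := ha.ne
  have hba : B b a = B a b := h.comm hb ha.mem
  have h4 := kills_of_card T
    (((2 * B a b / B a a) • 1 - (2 / B a a) • (rk B a b + rk B b a)) * refl B a)
    (((B b b / B a a) • 1 - (2 / B a a) • rk B b b) * refl B a) (2 * B a b / B a a)
    (B b b / B a a) hS (by
      intro t ht v
      have hq : B (a + t • b) (a + t • b) =
          (1 + t * (2 * B a b / B a a) + t ^ 2 * (B b b / B a a)) * B a a := by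
        simp only [map_add, map_smul, LinearMap.add_apply, LinearMap.smul_apply,
          smul_eq_mul, hba]
        field_simp
        ring
      have ht' : 1 + t * (2 * B a b / B a a) + t ^ 2 * (B b b / B a a) ≠ 0 :=
        left_ne_zero_of_mul (hq ▸ (hS' t ht).ne)
      rw [← ((hS' t ht).fixes.mul ha.fixes) v, ← Finset.card_univ, ← Finset.prod_const,
        ← smul_eq_mul (∏ _i : ι, _), ← T.map_smul_univ]
      congr 1
      funext i
      have h5 : v i = refl B a (refl B a (v i)) := by
        rw [← Module.End.mul_apply, refl_mul_self ha0, Module.End.one_apply]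
      simp only [Module.End.mul_apply]
      generalize refl B a (v i) = y at h5
      have h6 : ∀ z : ℂ, (1 + t * (2 * B a b / B a a) + t ^ 2 * (B b b / B a a)) *
          (2 / ((1 + t * (2 * B a b / B a a) + t ^ 2 * (B b b / B a a)) * B a a) * z) =
          2 / B a a * z := by
        intro z
        generalize (1 + t * (2 * B a b / B a a) + t ^ 2 * (B b b / B a a)) = q at ht'
        field_simp
      rw [h5, refl_apply (a + t • b), hq, refl_apply a, smul_sub _ y, smul_smul, h6]
      simp only [LinearMap.sub_apply, LinearMap.smul_apply, LinearMap.add_apply,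
        Module.End.one_apply, rk_apply, map_add, map_smul, smul_eq_mul]
      module)
  refine Kills.of_smul (c := 2 / B a a) (div_ne_zero (by simp) ha0) ?_
  convert h4 using 1
  ext x
  simp only [LinearMap.sub_apply, LinearMap.smul_apply, LinearMap.add_apply,
    Module.End.mul_apply, Module.End.one_apply, rk_apply, refl_apply, wd_apply, map_sub,
    map_smul]
  match_scalars
  · field_simp
    ring
  · field_simp
    ring
  · ring

/-- The complex slopes. -/
noncomputable def slopeC (k : ℂ) : ℕ → ℂ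
  | 0 => k
  | m + 1 => k - slopeC k m / (k * slopeC k m - 1)

/-- The first `M` slopes are well defined. -/
def Fine (M : ℕ) (k : ℂ) : Prop := ∀ m ≤ M, slopeC k m ≠ 0 ∧ k * slopeC k m - 1 ≠ 0

theorem fine_of_norm {k : ℂ} (hk : 2 ≤ ‖k‖) (M : ℕ) : Fine M k := by
  have h1 : ∀ t : ℂ, 1 < ‖t‖ → ‖t‖ < ‖k * t - 1‖ := by
    intro t ht
    have h2 := norm_sub_norm_le (k * t) 1
    rw [norm_mul, norm_one] at h2
    nlinarith
  have h2 : ∀ m, 1 < ‖slopeC k m‖ := by
    intro m
    induction m with
    | zero => simp only [slopeC]; linarith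
    | succ m ih =>
      have h3 := h1 _ ih
      have h4 : ‖slopeC k m / (k * slopeC k m - 1)‖ < 1 := by
        rw [norm_div, div_lt_one (by linarith)]
        exact h3
      have h5 := norm_sub_norm_le k (slopeC k m / (k * slopeC k m - 1))
      simp only [slopeC]
      linarith
  intro m _
  refine ⟨fun h0 => ?_, fun h0 => ?_⟩
  · have := h2 m
    rw [h0, norm_zero] at this
    linarith
  · have h3 := h1 _ (h2 m)
    have := h2 m
    rw [h0, norm_zero] at h3
    linarith

theorem eventually_fine (M : ℕ) : ∀ᶠ k in 𝓝 (2 : ℂ), Fine M k := by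
  have h0 : ∀ m, slopeC 2 m ≠ 0 ∧ 2 * slopeC 2 m - 1 ≠ 0 := fun m =>
    fine_of_norm (by simp) m m le_rfl
  have h1 : ∀ m, ContinuousAt (fun k => slopeC k m) 2 := by
    intro m
    induction m with
    | zero => exact continuousAt_id
    | succ m ih =>
      exact continuousAt_id.sub (ih.div ((continuousAt_id.mul ih).sub continuousAt_const) (h0 m).2)
  have h2 : ∀ m, ∀ᶠ k in 𝓝 (2 : ℂ), slopeC k m ≠ 0 ∧ k * slopeC k m - 1 ≠ 0 := fun m =>
    ((h1 m).eventually_ne (h0 m).1).and
      (((continuousAt_id.mul (h1 m)).sub continuousAt_const).eventually_ne (h0 m).2)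
  have h3 := (eventually_all_finite (Set.finite_Iic M)).2 fun m _ => h2 m
  exact h3.mono fun k hk m hm => hk m hm

theorem Fine.injOn {M : ℕ} {k : ℂ} (h : Fine M k) : Set.InjOn (slopeC k) (Set.Iic M) := by
  have key : ∀ m n, m < n → n ≤ M → slopeC k m ≠ slopeC k n := by
    intro m
    induction m with
    | zero =>
      intro n hn hnM h0
      obtain ⟨n, rfl⟩ : ∃ n', n = n' + 1 := ⟨n - 1, by omega⟩
      simp only [slopeC] at h0
      have h1 : slopeC k n / (k * slopeC k n - 1) = 0 := by linear_combination h0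
      exact div_ne_zero (h n (by omega)).1 (h n (by omega)).2 h1
    | succ m ih =>
      intro n hn hnM h0
      obtain ⟨n, rfl⟩ : ∃ n', n = n' + 1 := ⟨n - 1, by omega⟩
      simp only [slopeC] at h0
      have h1 : slopeC k m / (k * slopeC k m - 1) = slopeC k n / (k * slopeC k n - 1) := by
        linear_combination -h0
      rw [div_eq_div_iff (h m (by omega)).2 (h n (by omega)).2] at h1
      exact ih n (by omega) (by omega) (by linear_combination -h1)
  intro m hm n hn hmn
  rcases lt_trichotomy m n with h1 | h1 | h1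
  · exact absurd hmn (key m n h1 hn)
  · exact h1
  · exact absurd hmn.symm (key n m h1 hm)

/-- Two reflections generating a large dihedral group. -/
theorem kills_wd_of_fine (h : IsForm B V 1) {a b : H} (ha : Good B V T a) (hb : Good B V T b)
    (hab : B b b = B a a) {k : ℂ} (hk : Fine (2 * Fintype.card ι) k)
    (hk' : 2 * B a b = -k * B a a) : Kills (wd B 1 a b) T := by
  have hba : B b a = B a b := h.comm hb.mem ha.mem
  have ha0 := ha.ne
  have hab' : B a b = -k * B a a / 2 := by linear_combination hk' / 2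
  have h0 : 2 / B a a * (-k * B a a / 2) = -k := by field_simp
  have h1 : ∀ t : ℂ, Good B V T (a + t • b) → Good B V T (a + (k - t) • b) := by
    intro t ht
    have h2 := hb.refl h ht
    have h3 : refl B b (a + t • b) = a + (k - t) • b := by
      simp only [refl_apply, map_add, map_smul, hab, hab']
      rw [h0, div_mul_cancel₀ _ ha0]
      module
    rwa [h3] at h2
  have h2 : ∀ t : ℂ, k * t - 1 ≠ 0 → Good B V T (a + t • b) →
      Good B V T (a + (t / (k * t - 1)) • b) := by
    intro t hne ht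
    have h2 := (ha.refl h ht).smul (inv_ne_zero hne)
    have h3 : (k * t - 1)⁻¹ • refl B a (a + t • b) = a + (t / (k * t - 1)) • b := by
      simp only [refl_apply, map_add, map_smul, hba, hab']
      rw [h0, div_mul_cancel₀ _ ha0]
      match_scalars
      · field_simp
        ring
      · field_simp
    rwa [h3] at h2
  have h3 : ∀ m ≤ 2 * Fintype.card ι, Good B V T (a + slopeC k m • b) := by
    intro m hm
    induction m with
    | zero => simpa [slopeC] using h1 0 (by simpa using ha)
    | succ m ih => exact h1 _ (h2 _ (hk m (by omega)).2 (ih (by omega)))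
  classical
  refine kills_wd_of_card h ha hb.mem (S := (Finset.Iic (2 * Fintype.card ι)).image (slopeC k))
    ?_ fun t ht => ?_
  · rw [Finset.card_image_of_injOn (by simpa using hk.injOn)]
    simp
  · obtain ⟨m, hm, rfl⟩ := Finset.mem_image.1 ht
    exact h3 m (Finset.mem_Iic.1 hm)

omit [Fintype ι] [DecidableEq ι] in
theorem Root.good (h : IsForm B V 1) (hΔ : ∀ δ ∈ Δ, δ ∈ V) (hc : ∀ δ ∈ Δ, B δ δ ^ 2 = 4)
    (hT : ∀ δ ∈ Δ, Fixes (Inv.refl B δ) T) {a : H} (ha : Root B Δ a) :
    Good B V T a ∧ B a a ^ 2 = 4 := by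
  induction ha with
  | base hδ => exact ⟨⟨hΔ _ hδ, fun h0 => by simpa [h0] using hc _ hδ, hT _ hδ⟩, hc _ hδ⟩
  | refl _ _ iha ihb =>
    exact ⟨iha.1.refl h ihb.1, by rw [h.refl_refl iha.1.mem iha.1.ne ihb.1.mem, ihb.2]⟩

theorem wd_ne_zero {a b : H} (ha : B a a ≠ 0) (h : ∀ c : ℂ, b ≠ c • a) : wd B 1 a b ≠ 0 := by
  intro h0
  have h1 := congrArg (fun A : Module.End ℂ H => A a) h0
  simp only [wd_apply, LinearMap.zero_apply, one_mul, sub_eq_zero] at h1
  refine h (B a b / B a a) ?_
  rw [div_eq_inv_mul, mul_smul, ← h1, smul_smul, inv_mul_cancel₀ ha, one_smul]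

/-- **Deligne**, without integrality: an infinite irreducible root system is Zariski dense. -/
theorem lieInv_of_infinite [FiniteDimensional ℂ H] (h : IsForm B V 1) (hΔ : Irr B V Δ)
    (hc : ∀ δ ∈ Δ, B δ δ ^ 2 = 4) (hT : ∀ δ ∈ Δ, Fixes (refl B δ) T)
    (hinf : {a | Root B Δ a}.Infinite) : LieInv B V 1 T := by
  have hR := fun a (ha : Root B Δ a) => ha.good h (fun δ hδ => hΔ.mem hδ) hc hT
  have hnorm : ∀ a, Root B Δ a → ‖B a a‖ = 2 := by
    intro a ha
    have h1 := congrArg norm (hR a ha).2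
    rw [norm_pow] at h1
    have h2 : ‖(4 : ℂ)‖ = 2 ^ 2 := by norm_num
    exact (pow_left_inj₀ (norm_nonneg _) (by norm_num) two_ne_zero).1 (h1.trans h2)
  suffices hs : ∃ a ∈ V, ∃ b ∈ V, wd B 1 a b ≠ 0 ∧ Kills (wd B 1 a b) T by
    obtain ⟨a, ha, b, hb, h1, h2⟩ := hs
    exact lieInv_of_reflections h hΔ (fun δ hδ => (hR δ (Root.base hδ)).1.ne) hT
      (h.skew_wd ha hb) h1 h2
  by_cases hb : ∃ a, Root B Δ a ∧ ∃ b, Root B Δ b ∧ 2 < ‖B a b‖
  · obtain ⟨a, ha, b, hb, hab⟩ := hb
    obtain ⟨c, hc1, hc2⟩ : ∃ c : ℂ, ‖c‖ = 1 ∧ B (c • b) (c • b) = B a a := by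
      have h1 : (B b b - B a a) * (B b b + B a a) = 0 := by
        linear_combination (hR b hb).2 - (hR a ha).2
      rcases mul_eq_zero.1 h1 with h2 | h2
      · exact ⟨1, norm_one, by simpa using sub_eq_zero.1 h2⟩
      · refine ⟨Complex.I, Complex.norm_I, ?_⟩
        simp only [map_smul, LinearMap.smul_apply, smul_eq_mul]
        linear_combination (B b b) * Complex.I_mul_I - h2
    have hc0 : c ≠ 0 := fun h0 => by simp [h0] at hc1
    have hg := (hR b hb).1.smul hc0
    have hn : 2 < ‖B a (c • b)‖ := by rwa [map_smul, norm_smul, hc1, one_mul]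
    refine ⟨a, (hR a ha).1.mem, c • b, hg.mem, wd_ne_zero (hR a ha).1.ne fun d hd => ?_,
      kills_wd_of_fine h (hR a ha).1 hg hc2 (k := -2 * B a (c • b) / B a a)
        (fine_of_norm ?_ _) (by have := (hR a ha).1.ne; field_simp)⟩
    · rw [hd] at hc2 hn
      simp only [map_smul, LinearMap.smul_apply, smul_eq_mul] at hc2 hn
      have h1 : d * d = 1 := mul_right_cancel₀ (hR a ha).1.ne (by linear_combination hc2)
      have h2 : ‖d‖ * ‖d‖ = 1 := by rw [← norm_mul, h1, norm_one]
      rw [norm_mul, hnorm a ha] at hn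
      nlinarith [norm_nonneg d]
    · rw [norm_div, norm_mul, hnorm a ha, norm_neg]
      simp only [Complex.norm_ofNat]
      linarith
  push Not at hb
  have hbd : ∀ v ∈ V, ∃ C : ℝ, ∀ a, Root B Δ a → ‖B a v‖ ≤ C := by
    intro v hv
    rw [← hΔ.span] at hv
    induction hv using Submodule.span_induction with
    | mem x hx => exact ⟨2, fun a ha => hb a ha x (Root.base hx)⟩
    | zero => exact ⟨0, fun a _ => by simp⟩
    | add x y _ _ hx hy =>
      obtain ⟨C, hC⟩ := hx
      obtain ⟨C', hC'⟩ := hy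
      exact ⟨C + C', fun a ha => by
        rw [map_add]; exact (norm_add_le _ _).trans (add_le_add (hC a ha) (hC' a ha))⟩
    | smul c x _ hx =>
      obtain ⟨C, hC⟩ := hx
      exact ⟨‖c‖ * C, fun a ha => by
        rw [map_smul, norm_smul]; exact mul_le_mul_of_nonneg_left (hC a ha) (norm_nonneg _)⟩
  obtain ⟨n, e, f, hF, -⟩ := exists_frame h
  choose C hC using fun i => hbd (f i) (hF.f_mem i)
  let u := hinf.natEmbedding
  have hu : ∀ m, Root B Δ (u m) := fun m => (u m).2
  let c : ℕ → Fin n → ℂ := fun m i => B (u m) (f i)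
  obtain ⟨y, -, ψ, hψ, hy⟩ := (isCompact_univ_pi fun i => isCompact_closedBall (0 : ℂ) (C i)
    ).tendsto_subseq (x := c) fun m i _ => by simpa using hC i _ (hu m)
  let G : (Fin n → ℂ) × (Fin n → ℂ) → ℂ := fun p => ∑ i, ∑ j, p.1 i * p.2 j * B (e i) (e j)
  have hG : Continuous G := by fun_prop
  have hGc : ∀ m m', G (c m, c m') = B (u m) (u m') := by
    intro m m'
    conv_rhs => rw [← hF.expand _ (hR _ (hu m)).1.mem, ← hF.expand _ (hR _ (hu m')).1.mem]
    simp only [G, c, map_sum, map_smul, LinearMap.sum_apply, LinearMap.smul_apply, smul_eq_mul,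
      Finset.mul_sum]
    rw [Finset.sum_comm]
    exact Finset.sum_congr rfl fun _ _ => Finset.sum_congr rfl fun _ _ => by ring
  have hy' : Tendsto (fun m => c (ψ (m + 1))) atTop (𝓝 y) := hy.comp (tendsto_add_atTop_nat 1)
  have t1 : Tendsto (fun m => B (u (ψ m)) (u (ψ m))) atTop (𝓝 (G (y, y))) := by
    simp only [← hGc]
    exact (hG.tendsto _).comp (hy.prodMk_nhds hy)
  have t2 : Tendsto (fun m => B (u (ψ m)) (u (ψ (m + 1)))) atTop (𝓝 (G (y, y))) := by
    simp only [← hGc]
    exact (hG.tendsto _).comp (hy.prodMk_nhds hy')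
  have t3 := t1.comp (tendsto_add_atTop_nat 1)
  have hq : ‖G (y, y)‖ = 2 :=
    tendsto_nhds_unique t1.norm (by simp only [hnorm _ (hu _)]; exact tendsto_const_nhds)
  have hq0 : G (y, y) ≠ 0 := fun h0 => by simp [h0] at hq
  have t4 : Tendsto (fun m => 2 * B (u (ψ m)) (u (ψ (m + 1))) / B (u (ψ m)) (u (ψ m))) atTop
      (𝓝 2) := by
    have := (t2.const_mul 2).div t1 hq0
    rwa [mul_div_assoc, div_self hq0, mul_one] at this
  have t5 := (t3.add t1).eventually_ne (b₂ := 0) (by rw [← two_mul]; simpa using hq0)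
  obtain ⟨m, h1, h2, h3⟩ := ((t4.eventually (eventually_fine (2 * Fintype.card ι))).and
    (t5.and (t4.eventually_ne (b₂ := -2) (by norm_num)))).exists
  have hne : (u (ψ (m + 1)) : H) ≠ u (ψ m) := fun h0 => by
    have := hψ.injective (u.injective (Subtype.ext h0))
    omega
  have ha := hu (ψ m)
  have hb' := hu (ψ (m + 1))
  simp only [comp_apply] at h2
  generalize (u (ψ m) : H) = a at h1 h2 h3 hne ha
  generalize (u (ψ (m + 1)) : H) = b at h1 h2 h3 hne hb'
  have ha0 := (hR a ha).1.ne
  have h4 : B b b = B a a := by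
    have h5 : (B b b - B a a) * (B b b + B a a) = 0 := by
      linear_combination (hR b hb').2 - (hR a ha).2
    exact sub_eq_zero.1 ((mul_eq_zero.1 h5).resolve_right h2)
  have hg := (hR b hb').1.smul (c := -1) (by simp)
  refine ⟨a, (hR a ha).1.mem, _, hg.mem, wd_ne_zero ha0 fun d hd => ?_,
    kills_wd_of_fine h (hR a ha).1 hg (by simpa using h4) h1 (by
      simp only [map_smul, smul_eq_mul]
      field_simp)⟩
  have h5 : b = (-d) • a := by rw [neg_smul, ← hd]; simp
  rw [h5] at h4 h3 hne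
  simp only [map_smul, LinearMap.smul_apply, smul_eq_mul] at h4 h3
  have h6 : (d - 1) * (d + 1) = 0 := mul_right_cancel₀ ha0 (by linear_combination h4)
  rcases mul_eq_zero.1 h6 with h7 | h7
  · refine h3 ?_
    rw [sub_eq_zero.1 h7]
    field_simp
  · refine hne ?_
    rw [eq_neg_of_add_eq_zero_left h7]
    simp

/-- If the set of roots is finite, a vector with real products with all roots is not isotropic. -/
theorem eq_zero_of_finite' [FiniteDimensional ℂ H] (h : IsForm B V 1) (hΔ : Irr B V Δ)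
    (h0 : ∀ δ ∈ Δ, B δ δ ≠ 0) (hfin : {a | Root B Δ a}.Finite) {x : H} (hxV : x ∈ V)
    (hxx : B x x = 0) (hx : ∀ a, Root B Δ a → (B x a).im = 0) : x = 0 := by
  have hR : ∀ a, Root B Δ a → a ∈ V ∧ B a a ≠ 0 := by
    intro a ha
    induction ha with
    | base hδ => exact ⟨hΔ.mem hδ, h0 _ hδ⟩
    | refl _ _ iha ihb =>
      exact ⟨refl_mem iha.1 ihb.1, by rw [h.refl_refl iha.1 iha.2 ihb.1]; exact ihb.2⟩
  have hI : Irr B V {a | Root B Δ a} := by
    refine ⟨le_antisymm (Submodule.span_le.2 fun a ha => (hR a ha).1) ?_, fun W hW hd =>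
      hΔ.irr W hW fun δ hδ => hd δ (Root.base hδ)⟩
    rw [← hΔ.span]
    exact Submodule.span_mono fun δ hδ => Root.base hδ
  have hRR : ∀ a, Root B {a | Root B Δ a} a → Root B Δ a := by
    intro a ha
    induction ha with
    | base hδ => exact hδ
    | refl _ _ iha ihb => exact iha.refl ihb
  exact eq_zero_of_finite h hI (fun a ha => ⟨(hR a (hRR a ha)).1, (hR a (hRR a ha)).2,
    AddSubgroup.subset_closure (hRR a ha)⟩) (hfin.subset hRR) hxV hxx hx

/-- With a real structure `σ`: real vanishing cycles of square `± 2` and a real isotropic vector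
give Zariski density. -/
theorem lieInv_of_real [FiniteDimensional ℂ H] (h : IsForm B V 1) (hΔ : Irr B V Δ)
    (hc : ∀ δ ∈ Δ, B δ δ ^ 2 = 4) (hT : ∀ δ ∈ Δ, Fixes (refl B δ) T)
    (σ : H →ₛₗ[starRingEnd ℂ] H) (hσ : ∀ x y, B (σ x) (σ y) = starRingEnd ℂ (B x y))
    (hΔσ : ∀ δ ∈ Δ, σ δ = δ) {x : H} (hxV : x ∈ V) (hx0 : x ≠ 0) (hxx : B x x = 0)
    (hx : σ x = x) : LieInv B V 1 T := by
  refine lieInv_of_infinite h hΔ hc hT fun hfin => hx0 (eq_zero_of_finite' h hΔ
    (fun δ hδ h0 => by simpa [h0] using hc δ hδ) hfin hxV hxx fun a ha => ?_)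
  have h1 : σ a = a := by
    induction ha with
    | base hδ => exact hΔσ _ hδ
    | @refl a b _ _ iha ihb =>
      have h2 := hσ a a
      have h3 := hσ b a
      rw [iha] at h2
      rw [iha, ihb] at h3
      rw [refl_apply, map_sub, map_smulₛₗ, iha, ihb, map_mul, map_div₀, ← h2, ← h3, map_ofNat]
  have h2 := hσ x a
  rw [hx, h1] at h2
  exact Complex.conj_eq_iff_im.1 h2.symm

end Vale.Agent.P269.Inv
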