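import Vale.Agent.P269.Inv.Lie

/-!
# P269: reduction of the Virasoro operators on the primitive part to their trace part (helper4)

`z`, `zi = z⁻¹`, `a = z² ∂ + z / 2` are elements of a ring with `a z = z a + z²`.  On the primitive
part `V` the operator `l_k` is `z⁻¹ (a + z μ) ^ (k + 1)`.
-/

open Function

namespace Vale.Agent.P269.Inv

variable {H : Type*} [AddCommGroup H] [Module ℂ H]
variable {B : H →ₗ[ℂ] H →ₗ[ℂ] ℂ} {V : Submodule ℂ H} {ε : ℂ}
variable {R E : Type*} [Ring R] [Algebra ℂ R] [Ring E] [Algebra ℂ E]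
variable {φ : R →ₗ[ℂ] Module.End ℂ H →ₗ[ℂ] E} {𝔞 : Submodule ℂ E}

/-- The commutation relations of `z`, `z⁻¹` and `a = z² ∂ + z / 2`. -/
structure Rel (z zi a : R) : Prop where
  mul_inv : z * zi = 1
  inv_mul : zi * z = 1
  comm : a * z = z * a + z * z

namespace Rel

variable {z zi a : R}

theorem conj (h : Rel z zi a) (l : ℂ) : (a + l • z) * z = z * (a + (l + 1) • z) := by
  simp only [add_mul, mul_add, h.comm, smul_mul_assoc, mul_smul_comm, add_smul, one_smul]
  abel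

theorem conj_pow (h : Rel z zi a) (l : ℂ) (i : ℕ) :
    zi * (a + l • z) ^ i * z = (a + (l + 1) • z) ^ i := by
  induction i with
  | zero => simp [h.inv_mul]
  | succ i ih => rw [pow_succ, pow_succ, ← mul_assoc, mul_assoc _ _ z, h.conj, ← mul_assoc, ih]

theorem sub_succ (h : Rel z zi a) (l m : ℂ) (k : ℕ) :
    zi * (a + l • z) ^ (k + 1) - zi * (a + m • z) ^ (k + 1) =
      (l - m) • (a + (l + 1) • z) ^ k +
        (zi * (a + l • z) ^ k - zi * (a + m • z) ^ k) * (a + m • z) := by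
  rw [← h.conj_pow l k, pow_succ, pow_succ, ← mul_assoc, ← mul_assoc]
  simp only [mul_add, sub_mul, mul_smul_comm, sub_smul]
  module

theorem sub_eq (h : Rel z zi a) (l m : ℂ) (k : ℕ) :
    zi * (a + l • z) ^ k - zi * (a + m • z) ^ k =
      ∑ i ∈ Finset.range k, (l - m) • ((a + (l + 1) • z) ^ i * (a + m • z) ^ (k - 1 - i)) := by
  induction k with
  | zero => simp
  | succ k ih =>
    rw [h.sub_succ, ih, Finset.sum_range_succ, Finset.sum_mul, add_comm]
    simp only [Nat.add_sub_cancel, Nat.sub_self, pow_zero, mul_one, smul_mul_assoc]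
    congr 1
    refine Finset.sum_congr rfl fun i hi => ?_
    have : k - i = k - 1 - i + 1 := by have := Finset.mem_range.1 hi; omega
    rw [this, pow_succ, mul_assoc]

theorem sub_one (h : Rel z zi a) (l : ℂ) (k : ℕ) :
    zi * (a + (l + 1) • z) ^ (k + 1) - zi * (a + l • z) ^ (k + 1) =
      ((k : ℂ) + 1) • (a + (l + 1) • z) ^ k := by
  induction k with
  | zero => simp [mul_add, add_smul, h.inv_mul]
  | succ k ih =>
    have h1 : zi * (a + l • z) ^ (k + 1 + 1) =
        zi * (a + l • z) ^ (k + 1) * (a + (l + 1) • z) - (a + (l + 1) • z) ^ (k + 1) := by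
      rw [← h.conj_pow l (k + 1), pow_succ _ (k + 1), ← mul_assoc, ← mul_sub]
      congr 1
      module
    rw [h1, pow_succ _ (k + 1), ← mul_assoc, ← sub_add, ← sub_mul, ih, smul_mul_assoc, ← pow_succ]
    push_cast
    module

end Rel

theorem InJ.pow [FiniteDimensional ℂ H] (h : IsForm B V ε) (hV : 5 ≤ Module.finrank ℂ V)
    (hφ : Tens φ 𝔞) (h1 : InJ B V ε φ 𝔞 1 1) {p p' : R} (hp : InJ B V ε φ 𝔞 p p') (i : ℕ) :
    InJ B V ε φ 𝔞 (p ^ i) (p' ^ i) := by
  induction i with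
  | zero => simpa using h1
  | succ i ih =>
    rw [pow_succ, pow_succ']
    exact ih.mul h hV hφ hp

/-- An element acting through the skew maps. -/
theorem inJ_of_skew (h : IsForm B V ε) {p : R} (hp : ∀ A, Skew B V A → φ p A ∈ 𝔞) :
    InJ B V ε φ 𝔞 p p := fun u hu v hv _ => by
  rw [← map_sub]
  exact hp _ (h.skew_wd hu hv)

/-- An element acting through the traceless self adjoint maps. -/
theorem inJ_of_selfAdj {p : R}
    (hp : ∀ u ∈ V, ∀ v ∈ V, B u v = 0 → φ p (rk B u v + ε • rk B v u) ∈ 𝔞) :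
    InJ B V ε φ 𝔞 p (-p) := fun u hu v hv h0 => by
  rw [map_neg, LinearMap.neg_apply, sub_neg_eq_add, ← map_add]
  exact hp u hu v hv h0

theorem inJ_sub [FiniteDimensional ℂ H] (h : IsForm B V ε) (hV : 5 ≤ Module.finrank ℂ V)
    (hφ : Tens φ 𝔞) {z zi a : R} (hr : Rel z zi a) (h1 : InJ B V ε φ 𝔞 1 1)
    (h2 : InJ B V ε φ 𝔞 z (-z))
    (h3 : InJ B V ε φ 𝔞 (a + (1 / 2 : ℂ) • z) (a + (1 / 2 : ℂ) • z)) (l m : ℂ) (k : ℕ) :
    InJ B V ε φ 𝔞 (zi * (a + l • z) ^ k - zi * (a + m • z) ^ k)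
      (zi * (a + (-m) • z) ^ k - zi * (a + (-l) • z) ^ k) := by
  have h4 : ∀ l : ℂ, InJ B V ε φ 𝔞 (a + l • z) (a + (1 - l) • z) := by
    intro l
    have := h3.add (h2.smul (l - 1 / 2))
    convert this using 1 <;> module
  rw [hr.sub_eq, hr.sub_eq, ← Finset.sum_range_reflect
    (fun i => (-m - -l) • ((a + (-m + 1) • z) ^ i * (a + (-l) • z) ^ (k - 1 - i)))]
  refine InJ.sum _ fun i hi => ?_
  have := ((h1.pow h hV hφ (h4 (l + 1)) i).mul h hV hφ (h1.pow h hV hφ (h4 m) (k - 1 - i))).smul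
    (l - m)
  have h5 : k - 1 - (k - 1 - i) = i := by have := Finset.mem_range.1 hi; omega
  rw [h5, show -m - -l = l - m by ring, show -m + 1 = 1 - m by ring,
    show -l = 1 - (l + 1) by ring]
  exact this

theorem exists_coeff (z a : R) (k : ℕ) :
    ∃ c : ℕ → R, ∀ l : ℂ, (a + l • z) ^ k = ∑ j ∈ Finset.range (k + 1), l ^ j • c j := by
  induction k with
  | zero => exact ⟨fun _ => 1, fun l => by simp⟩
  | succ k ih =>
    obtain ⟨c, hc⟩ := ih
    refine ⟨fun j => (if j < k + 1 then c j * a else 0) + (if j = 0 then 0 else c (j - 1) * z),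
      fun l => ?_⟩
    simp only [smul_add, Finset.sum_add_distrib]
    rw [Finset.sum_range_succ, Finset.sum_range_succ' _ (k + 1), pow_succ, hc, mul_add,
      Finset.sum_mul, Finset.sum_mul]
    simp only [lt_irrefl, if_false, smul_zero, add_zero, if_true, Nat.add_sub_cancel,
      Nat.succ_ne_zero]
    congr 1
    · refine Finset.sum_congr rfl fun j hj => ?_
      rw [if_pos (Finset.mem_range.1 hj), smul_mul_assoc]
    · refine Finset.sum_congr rfl fun j _ => ?_
      rw [smul_mul_assoc, mul_smul_comm, smul_smul, pow_succ]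

section Main

variable {κ : Type*} [Fintype κ] {e f : κ → H} {μ : Module.End ℂ H} {l : κ → ℂ}

theorem Skew.adj_pow (h : IsForm B V ε) (hF : Frame B V e f) (hμ : Skew B V μ) (j : ℕ) :
    Adj B V (μ ^ j * proj B e f) ((-1 : ℂ) ^ j • (μ ^ j * proj B e f)) := by
  induction j with
  | zero => simpa using hF.adj_proj h
  | succ j ih =>
    have h1 := hμ.adj.mul ih
    have h2 : μ ^ j * proj B e f * μ = μ ^ (j + 1) * proj B e f := by
      rw [mul_assoc, hμ.adj.proj_mul hF, pow_succ, mul_assoc, hμ.adj.mul_proj h hF]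
    rw [← mul_assoc, ← pow_succ', smul_mul_assoc, mul_neg, h2] at h1
    rwa [pow_succ (-1 : ℂ), mul_neg_one, neg_smul, ← smul_neg]

theorem pow_mul_proj (hl : ∀ b, μ (e b) = l b • e b) (j : ℕ) :
    μ ^ j * proj B e f = ∑ b, l b ^ j • rk B (f b) (e b) := by
  have h1 : ∀ b, (μ ^ j) (e b) = l b ^ j • e b := by
    intro b
    induction j with
    | zero => simp
    | succ j ih => rw [pow_succ', Module.End.mul_apply, ih, map_smul, hl, smul_smul, pow_succ]
  ext x
  simp [proj_apply, LinearMap.sum_apply, h1, smul_smul, mul_comm]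

theorem pow_mul_proj' (h : IsForm B V ε) (hF : Frame B V e f) (hμ : Skew B V μ)
    (hl : ∀ b, μ (e b) = l b • e b) (j : ℕ) :
    μ ^ j * proj B e f = ∑ b, (-l b) ^ j • ε • rk B (e b) (f b) := by
  have h1 := (hμ.adj_pow h hF j).eq_sum' h hF
  have h2 : μ ^ j * proj B e f = (-1 : ℂ) ^ j • (-1 : ℂ) ^ j • (μ ^ j * proj B e f) := by
    rw [smul_smul, ← mul_pow]
    simp
  rw [h2, h1, Finset.smul_sum]
  refine Finset.sum_congr rfl fun b _ => ?_
  have h3 : (μ ^ j * proj B e f) (e b) = l b ^ j • e b := by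
    rw [Module.End.mul_apply, hF.proj_of_mem (hF.e_mem b)]
    clear h1 h2
    induction j with
    | zero => simp
    | succ j ih => rw [pow_succ', Module.End.mul_apply, ih, map_smul, hl, smul_smul, pow_succ]
  rw [h3, rk_smul_left, neg_pow (l b)]
  module

theorem sum_neg_pow (h : IsForm B V ε) (hF : Frame B V e f) (hd : ∀ b, B (e b) (f b) = 1)
    (hμ : Skew B V μ) (hl : ∀ b, μ (e b) = l b • e b) (j : ℕ) :
    ∑ b, (-l b) ^ j = ∑ b, l b ^ j := by
  have h1 := congrArg (tr B e f) ((pow_mul_proj hl j).symm.trans (pow_mul_proj' h hF hμ hl j))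
  simp only [tr, LinearMap.sum_apply, LinearMap.smul_apply, rk_apply, map_sum, map_smul,
    smul_eq_mul] at h1
  rw [Finset.sum_comm, Finset.sum_comm (f := fun a b => (-l b) ^ j * _)] at h1
  have h2 : ∀ b, ∑ a, l b ^ j * (B (e a) (f b) * B (e b) (f a)) = l b ^ j := by
    intro b
    rw [← Finset.mul_sum, Finset.sum_congr rfl fun a _ => mul_comm _ _,
      hF.pairing (hF.e_mem b), hd, mul_one]
  have h3 : ∀ b, ∑ a, (-l b) ^ j * (ε * (B (e a) (e b) * B (f b) (f a))) = (-l b) ^ j := by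
    intro b
    rw [← Finset.mul_sum, ← Finset.mul_sum, Finset.sum_congr rfl fun a _ => mul_comm _ _,
      hF.pairing (hF.f_mem b), ← h.symm _ (hF.e_mem b) _ (hF.f_mem b), hd, mul_one]
  simp only [h2, h3] at h1
  exact h1.symm

theorem tens_pow (h : IsForm B V ε) (hF : Frame B V e f) (hφ : Tens φ 𝔞) (hμ : Skew B V μ)
    (hl : ∀ b, μ (e b) = l b • e b) (p z a : R) (k : ℕ) :
    φ p (proj B e f) * (φ a (proj B e f) + φ z μ) ^ k =
      ∑ b, φ (p * (a + l b • z) ^ k) (rk B (f b) (e b)) := by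
  induction k generalizing p with
  | zero => simp [proj]
  | succ k ih =>
    have h1 : φ p (proj B e f) * (φ a (proj B e f) + φ z μ) =
        φ (p * a) (proj B e f) + φ 1 μ * φ (p * z) (proj B e f) := by
      rw [mul_add, hφ.mul, hφ.mul, hφ.mul, one_mul, hμ.adj.proj_mul hF, hμ.adj.mul_proj h hF,
        (hF.adj_proj h).proj_mul hF]
    rw [pow_succ', ← mul_assoc, h1, add_mul, mul_assoc, ih, ih, Finset.mul_sum,
      ← Finset.sum_add_distrib]
    refine Finset.sum_congr rfl fun b _ => ?_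
    have h2 : μ * rk B (f b) (e b) = l b • rk B (f b) (e b) := by
      ext x
      simp [hl, smul_smul, mul_comm]
    rw [hφ.mul, one_mul, h2, map_smul, pow_succ', ← mul_assoc, mul_add, add_mul, map_add,
      LinearMap.add_apply, mul_smul_comm, smul_mul_assoc, map_smul, LinearMap.smul_apply]

/-- Hodge level at least two. -/
theorem red_of_two [FiniteDimensional ℂ H] (h : IsForm B V ε) (hV : 5 ≤ Module.finrank ℂ V)
    (hF : Frame B V e f) (hd : ∀ b, B (e b) (f b) = 1) (hφ : Tens φ 𝔞) {z zi a : R}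
    (hr : Rel z zi a) (hμ : Skew B V μ) (hl : ∀ b, μ (e b) = l b • e b)
    (h1 : InJ B V ε φ 𝔞 1 1) (h2 : InJ B V ε φ 𝔞 z (-z))
    (h3 : InJ B V ε φ 𝔞 (a + (1 / 2 : ℂ) • z) (a + (1 / 2 : ℂ) • z)) (k : ℕ) :
    (Fintype.card κ : ℂ) • (φ zi (proj B e f) * (φ a (proj B e f) + φ z μ) ^ k) -
      ∑ b, φ (zi * (a + l b • z) ^ k) (proj B e f) ∈ 𝔞 := by
  have htr : tr B e f (proj B e f) = Fintype.card κ := by
    simp [tr, hF.proj_of_mem (hF.e_mem _), hd]
  have htr' : ∀ b, tr B e f (rk B (f b) (e b)) = 1 := by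
    intro b
    simp only [tr, rk_apply, map_smul, LinearMap.smul_apply, smul_eq_mul]
    rw [Finset.sum_congr rfl fun a _ => mul_comm _ _, hF.pairing (hF.e_mem b), hd]
  have h4 := 𝔞.sum_mem fun b (_ : b ∈ Finset.univ) =>
    (inJ_sub h hV hφ hr h1 h2 h3 (l b) 0 k).mem h hF
      (((h.adj_rk (hF.f_mem b) (hF.e_mem b)).smul (Fintype.card κ)).sub (hF.adj_proj h))
      (by rw [tr_sub, tr_smul, htr, htr', mul_one, sub_self])
  obtain ⟨c, hc⟩ := exists_coeff z a k
  have h5 : ∑ b, φ (zi * (a + (-l b) • z) ^ k) (ε • rk B (e b) (f b)) =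
      ∑ b, φ (zi * (a + l b • z) ^ k) (rk B (f b) (e b)) := by
    simp only [hc, Finset.mul_sum, map_sum, LinearMap.sum_apply, mul_smul_comm, map_smul φ,
      LinearMap.smul_apply]
    rw [Finset.sum_comm, Finset.sum_comm (f := fun b j => l b ^ j • _)]
    refine Finset.sum_congr rfl fun j _ => ?_
    have := congrArg (φ (zi * c j)) ((pow_mul_proj hl j).symm.trans (pow_mul_proj' h hF hμ hl j))
    simp only [map_sum, map_smul] at this ⊢
    exact this.symm
  have h6 : ∑ b, φ (zi * (a + (-l b) • z) ^ k) (proj B e f) =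
      ∑ b, φ (zi * (a + l b • z) ^ k) (proj B e f) := by
    simp only [hc, Finset.mul_sum, map_sum, LinearMap.sum_apply, mul_smul_comm, map_smul φ,
      LinearMap.smul_apply]
    rw [Finset.sum_comm, Finset.sum_comm (f := fun b j => l b ^ j • _)]
    refine Finset.sum_congr rfl fun j _ => ?_
    rw [← Finset.sum_smul, ← Finset.sum_smul, sum_neg_pow h hF hd hμ hl]
  have h7 : ∑ b, ε • rk B (e b) (f b) = proj B e f := by
    have := pow_mul_proj' h hF hμ hl 0
    simpa using this.symm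
  have h8 : ∀ p : R, ∑ b, φ p (ε • rk B (e b) (f b)) = φ p (proj B e f) := fun p => by
    rw [← map_sum, h7]
  have h9 : ∀ p : R, ∑ b, φ p (rk B (f b) (e b)) = φ p (proj B e f) := fun p => by
    rw [← map_sum, proj]
  rw [tens_pow h hF hφ hμ hl]
  refine (𝔞.smul_mem_iff (two_ne_zero (α := ℂ))).1 ?_
  convert h4 using 1
  simp only [map_sub, LinearMap.sub_apply, map_smul _ (Fintype.card κ : ℂ), Finset.sum_sub_distrib,
    ← Finset.smul_sum, h5, h6, h8, h9, neg_zero, Finset.sum_const, Finset.card_univ,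
    ← Nat.cast_smul_eq_nsmul ℂ]
  module

theorem mem_pow_of_skew [FiniteDimensional ℂ H] (h : IsForm B V (-1)) (hφ : Tens φ 𝔞) {p : R}
    (hp : ∀ A, Skew B V A → φ p A ∈ 𝔞) (k : ℕ) {A : Module.End ℂ H} (hA : Skew B V A) :
    φ (p ^ (k + 1)) A ∈ 𝔞 := by
  induction k generalizing A with
  | zero => simpa using hp A hA
  | succ k ih =>
    have h1 : ∀ u ∈ V, φ (p ^ (k + 1 + 1)) (wd B (-1) u u) ∈ 𝔞 := by
      intro u hu
      by_cases h2 : ∀ w ∈ V, B w u = 0
      · rw [h.nondeg u hu h2, wd_zero_right, map_zero]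
        exact 𝔞.zero_mem
      push Not at h2
      obtain ⟨w, hw, hwu⟩ := h2
      have h3 := hφ.lie _ (hp _ (h.skew_wd hu hu)) _ (ih (h.skew_wd hw hu))
      rw [hφ.mul, hφ.mul, ← pow_succ, ← pow_succ', ← map_sub, (h.skew_wd hu hu).lie_wd hw hu,
        wd_apply, wd_apply, h.self_eq_zero hu] at h3
      have h4 : B w u • u - (-1 * B w u) • u = (2 * B w u) • u := by module
      simp only [h4, zero_smul, mul_zero, sub_zero, wd_zero_right, add_zero, wd_smul_left,
        map_smul] at h3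
      exact (𝔞.smul_mem_iff (mul_ne_zero two_ne_zero hwu)).1 h3
    have h2 : ∀ u ∈ V, ∀ v ∈ V, φ (p ^ (k + 1 + 1)) (wd B (-1) u v) ∈ 𝔞 := by
      intro u hu v hv
      have h3 := 𝔞.sub_mem (𝔞.sub_mem (h1 _ (V.add_mem hu hv)) (h1 u hu)) (h1 v hv)
      rw [wd_add_left, wd_add_right, wd_add_right, wd_swap (by ring) u v] at h3
      refine (𝔞.smul_mem_iff (two_ne_zero (α := ℂ))).1 ?_
      convert h3 using 1
      simp only [map_add, map_smul]
      module
    obtain ⟨n, e, f, hF, -⟩ := exists_frame h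
    refine (𝔞.smul_mem_iff (two_ne_zero (α := ℂ))).1 ?_
    rw [← map_smul, hA.eq_sum_wd h hF, map_sum]
    exact 𝔞.sum_mem fun a _ => h2 _ (hF.f_mem a) _ (hA.mem _)

/-- Hodge level one. -/
theorem red_of_one [FiniteDimensional ℂ H] (h : IsForm B V (-1))
    (hF : Frame B V e f) (hd : ∀ b, B (e b) (f b) = 1) (hφ : Tens φ 𝔞) {z zi a : R}
    (hr : Rel z zi a) (hμ : Skew B V μ) (hl : ∀ b, μ (e b) = l b • e b)
    (hl' : ∀ b, l b = 1 / 2 ∨ l b = -1 / 2) (h1 : ∀ A, Skew B V A → φ 1 A ∈ 𝔞)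
    (h3 : ∀ A, Skew B V A → φ (a + (1 / 2 : ℂ) • z) A ∈ 𝔞) (k : ℕ) :
    (Fintype.card κ : ℂ) • (φ zi (proj B e f) * (φ a (proj B e f) + φ z μ) ^ k) -
      ∑ b, φ (zi * (a + l b • z) ^ k) (proj B e f) ∈ 𝔞 := by
  obtain ⟨s, q, hq, hsq⟩ : ∃ s q : R, φ q μ ∈ 𝔞 ∧
      ∀ b, zi * (a + l b • z) ^ k = s + l b • q := by
    refine ⟨(1 / 2 : ℂ) • (zi * (a + (1 / 2 : ℂ) • z) ^ k + zi * (a + (-1 / 2 : ℂ) • z) ^ k),
      zi * (a + (1 / 2 : ℂ) • z) ^ k - zi * (a + (-1 / 2 : ℂ) • z) ^ k, ?_, fun b => ?_⟩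
    · rcases k with _ | k
      · simp
      · have h4 := hr.sub_one (-1 / 2) k
        rw [show (-1 / 2 + 1 : ℂ) = 1 / 2 by ring] at h4
        rw [h4, map_smul, LinearMap.smul_apply]
        refine 𝔞.smul_mem _ ?_
        rcases k with _ | k
        · simpa using h1 μ hμ
        · exact mem_pow_of_skew h hφ h3 k hμ
    · rcases hl' b with h4 | h4 <;> rw [h4] <;> module
  have h4 : ∑ b, l b = 0 := by
    have := sum_neg_pow h hF hd hμ hl 1
    simp only [pow_one, Finset.sum_neg_distrib] at this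
    linear_combination -this / 2
  have h5 : ∑ b, l b • φ q (rk B (f b) (e b)) = φ q μ := by
    have := congrArg (φ q) (pow_mul_proj (B := B) (f := f) hl 1)
    rw [pow_one, hμ.adj.mul_proj h hF] at this
    simpa using this.symm
  have h6 : ∑ b, φ s (rk B (f b) (e b)) = φ s (proj B e f) := by rw [← map_sum, proj]
  rw [tens_pow h hF hφ hμ hl]
  simp only [hsq, map_add, LinearMap.add_apply, map_smul φ, LinearMap.smul_apply,
    Finset.sum_add_distrib, h5, h6, ← Finset.sum_smul, h4, zero_smul, add_zero, Finset.sum_const,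
    Finset.card_univ, ← Nat.cast_smul_eq_nsmul ℂ, smul_add, add_sub_cancel_left]
  exact 𝔞.smul_mem _ hq

/-- Hodge level zero. -/
theorem red_of_zero (h : IsForm B V ε) (hF : Frame B V e f) (hφ : Tens φ 𝔞) (z zi a : R)
    (hμ : Skew B V μ) (hl : ∀ b, μ (e b) = l b • e b) (hl' : ∀ b, l b = 0) (k : ℕ) :
    (Fintype.card κ : ℂ) • (φ zi (proj B e f) * (φ a (proj B e f) + φ z μ) ^ k) -
      ∑ b, φ (zi * (a + l b • z) ^ k) (proj B e f) = 0 := by
  rw [tens_pow h hF hφ hμ hl]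
  simp only [hl', ← map_sum, Finset.sum_const, Finset.card_univ, ← Nat.cast_smul_eq_nsmul ℂ, proj,
    map_smul, sub_self]

/-- **Reduction to the trace part.**  `(T3)`: `(a + z / 2) ⊗ A ∈ 𝔞` for skew `A`, needed unless
`μ = 0`; `(T2)`: `z ⊗ A ∈ 𝔞` for traceless self adjoint `A`, needed for Hodge level at least two. -/
theorem red [FiniteDimensional ℂ H] (h : IsForm B V ε)
    (hF : Frame B V e f) (hd : ∀ b, B (e b) (f b) = 1) (hφ : Tens φ 𝔞) {z zi a : R}
    (hr : Rel z zi a) (hμ : Skew B V μ) (hl : ∀ b, μ (e b) = l b • e b)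
    (h1 : (∃ b, l b ≠ 0) → ∀ A, Skew B V A → φ 1 A ∈ 𝔞)
    (h3 : (∃ b, l b ≠ 0) → ∀ A, Skew B V A → φ (a + (1 / 2 : ℂ) • z) A ∈ 𝔞)
    (h2 : (∃ b, l b ≠ 0) → (ε = -1 ∧ ∀ b, l b = 1 / 2 ∨ l b = -1 / 2) ∨
      (5 ≤ Module.finrank ℂ V ∧
        ∀ u ∈ V, ∀ v ∈ V, B u v = 0 → φ z (rk B u v + ε • rk B v u) ∈ 𝔞)) (k : ℕ) :
    (Fintype.card κ : ℂ) • (φ zi (proj B e f) * (φ a (proj B e f) + φ z μ) ^ k) -
      ∑ b, φ (zi * (a + l b • z) ^ k) (proj B e f) ∈ 𝔞 := by
  by_cases h0 : ∃ b, l b ≠ 0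
  · rcases h2 h0 with ⟨rfl, h4⟩ | ⟨h4, h5⟩
    · exact red_of_one h hF hd hφ hr hμ hl h4 (h1 h0) (h3 h0) k
    · exact red_of_two h h4 hF hd hφ hr hμ hl (inJ_of_skew h (h1 h0)) (inJ_of_selfAdj h5)
        (inJ_of_skew h (h3 h0)) k
  · push Not at h0
    rw [red_of_zero h hF hφ z zi a hμ hl h0]
    exact 𝔞.zero_mem

end Main

end Vale.Agent.P269.Inv
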