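import Vale.Agent.P269.Inv.Der

/-!
# P269, invariant theory: Zariski density of groups generated by transvections or reflections
(helper4)

`H` is a complex vector space with a bilinear form `B`, `V ≤ H` a subspace on which `B` is
`ε`-symmetric and non degenerate, `Δ ⊆ V` the set of vanishing cycles.  A multilinear form fixed by
the Picard-Lefschetz transformations is killed by the Lie algebra `sp V` (skew case), resp. `so V`
(symmetric case, unless the group is finite).
-/

open Function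

namespace Vale.Agent.P269.Inv

variable {ι H : Type*} [Fintype ι] [DecidableEq ι] [AddCommGroup H] [Module ℂ H]

/-- The rank one map `x ↦ B x u • v`. -/
noncomputable def rk (B : H →ₗ[ℂ] H →ₗ[ℂ] ℂ) (u v : H) : Module.End ℂ H :=
  (B.flip u).smulRight v

@[simp] theorem rk_apply (B : H →ₗ[ℂ] H →ₗ[ℂ] ℂ) (u v x : H) : rk B u v x = B x u • v := rfl

/-- The elementary element `x ↦ B x u • v - ε B x v • u` of the Lie algebra of the form. -/
noncomputable def wd (B : H →ₗ[ℂ] H →ₗ[ℂ] ℂ) (ε : ℂ) (u v : H) : Module.End ℂ H :=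
  rk B u v - ε • rk B v u

theorem wd_apply (B : H →ₗ[ℂ] H →ₗ[ℂ] ℂ) (ε : ℂ) (u v x : H) :
    wd B ε u v x = B x u • v - (ε * B x v) • u := by
  simp [wd, smul_smul]

/-- `B` is `ε`-symmetric and non degenerate on `V`. -/
structure IsForm (B : H →ₗ[ℂ] H →ₗ[ℂ] ℂ) (V : Submodule ℂ H) (ε : ℂ) : Prop where
  sq : ε * ε = 1
  symm : ∀ u ∈ V, ∀ v ∈ V, B u v = ε * B v u
  nondeg : ∀ u ∈ V, (∀ v ∈ V, B v u = 0) → u = 0

/-- `T` is killed by the Lie algebra of the form on `V`. -/
def LieInv (B : H →ₗ[ℂ] H →ₗ[ℂ] ℂ) (V : Submodule ℂ H) (ε : ℂ) (T : MF ι H) : Prop :=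
  ∀ u ∈ V, ∀ v ∈ V, Kills (wd B ε u v) T

/-- The elements of the Lie algebra of the form on `V`, extended by zero on the orthogonal. -/
structure Skew (B : H →ₗ[ℂ] H →ₗ[ℂ] ℂ) (V : Submodule ℂ H) (A : Module.End ℂ H) : Prop where
  mem : ∀ x, A x ∈ V
  skew : ∀ x, ∀ v ∈ V, B (A x) v + B x (A v) = 0

/-- The vanishing cycles span `V` and act irreducibly. -/
structure Irr (B : H →ₗ[ℂ] H →ₗ[ℂ] ℂ) (V : Submodule ℂ H) (Δ : Set H) : Prop where
  span : Submodule.span ℂ Δ = V
  irr : ∀ W ≤ V, (∀ δ ∈ Δ, δ ∈ W ∨ ∀ w ∈ W, B w δ = 0) → W = ⊥ ∨ W = V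

variable {B : H →ₗ[ℂ] H →ₗ[ℂ] ℂ} {V : Submodule ℂ H} {ε : ℂ} {Δ : Set H} {T : MF ι H}

theorem Irr.mem (h : Irr B V Δ) {δ : H} (hδ : δ ∈ Δ) : δ ∈ V :=
  h.span ▸ Submodule.subset_span hδ

theorem IsForm.ne_zero (h : IsForm B V ε) : ε ≠ 0 := fun h0 => by simpa [h0] using h.sq

/-- A vector of `V` orthogonal to a spanning set vanishes. -/
theorem IsForm.eq_zero_of_span (h : IsForm B V ε) (hs : Submodule.span ℂ Δ = V) {u : H}
    (hu : u ∈ V) (h0 : ∀ δ ∈ Δ, B u δ = 0) : u = 0 := by
  refine h.nondeg u hu fun v hv => ?_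
  rw [h.symm v hv u hu]
  have : B u v = 0 := by
    rw [← hs] at hv
    induction hv using Submodule.span_induction with
    | mem x hx => exact h0 x hx
    | zero => simp
    | add x y _ _ hx hy => simp [hx, hy]
    | smul a x _ hx => simp [hx]
  rw [this, mul_zero]

theorem wd_add_left (u u' v : H) : wd B ε (u + u') v = wd B ε u v + wd B ε u' v := by
  ext x; simp only [wd_apply, map_add, LinearMap.add_apply]; module

theorem wd_add_right (u v v' : H) : wd B ε u (v + v') = wd B ε u v + wd B ε u v' := by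
  ext x; simp only [wd_apply, map_add, LinearMap.add_apply]; module

theorem wd_smul_left (c : ℂ) (u v : H) : wd B ε (c • u) v = c • wd B ε u v := by
  ext x; simp only [wd_apply, map_smul, LinearMap.smul_apply, smul_eq_mul]; module

theorem wd_smul_right (c : ℂ) (u v : H) : wd B ε u (c • v) = c • wd B ε u v := by
  ext x; simp only [wd_apply, map_smul, LinearMap.smul_apply, smul_eq_mul]; module

theorem wd_sub_left (u u' v : H) : wd B ε (u - u') v = wd B ε u v - wd B ε u' v := by
  ext x; simp only [wd_apply, map_sub, LinearMap.sub_apply]; module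

theorem wd_sub_right (u v v' : H) : wd B ε u (v - v') = wd B ε u v - wd B ε u v' := by
  ext x; simp only [wd_apply, map_sub, LinearMap.sub_apply]; module

theorem wd_zero_right (u : H) : wd B ε u 0 = 0 := by
  ext x; simp [wd_apply]

theorem wd_swap (hε : ε * ε = 1) (u v : H) : wd B ε v u = (-ε) • wd B ε u v := by
  ext x
  simp only [wd_apply, LinearMap.smul_apply]
  have : B x v = ε * (ε * B x v) := by rw [← mul_assoc, hε, one_mul]
  conv_lhs => rw [this]
  module

theorem IsForm.skew_wd (h : IsForm B V ε) {u v : H} (hu : u ∈ V) (hv : v ∈ V) :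
    Skew B V (wd B ε u v) := by
  refine ⟨fun x => ?_, fun x y hy => ?_⟩
  · rw [wd_apply]
    exact V.sub_mem (V.smul_mem _ hv) (V.smul_mem _ hu)
  · simp only [wd_apply, map_sub, map_smul, LinearMap.sub_apply, LinearMap.smul_apply, smul_eq_mul]
    rw [h.symm v hv y hy, h.symm y hy u hu]
    ring

theorem Skew.lie_wd {A : Module.End ℂ H} (hA : Skew B V A) {u v : H} (hu : u ∈ V) (hv : v ∈ V) :
    A * wd B ε u v - wd B ε u v * A = wd B ε (A u) v + wd B ε u (A v) := by
  ext x
  have h1 := hA.skew x u hu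
  have h2 := hA.skew x v hv
  simp only [LinearMap.sub_apply, Module.End.mul_apply, wd_apply, map_sub, map_smul,
    LinearMap.add_apply]
  rw [eq_neg_of_add_eq_zero_left h1, eq_neg_of_add_eq_zero_left h2]
  module

theorem Skew.eq_zero (h : IsForm B V ε) {A : Module.End ℂ H} (hA : Skew B V A)
    (h0 : ∀ v ∈ V, A v = 0) : A = 0 := by
  ext x
  refine h.nondeg _ (hA.mem x) fun v hv => ?_
  have := hA.skew x v hv
  rw [h0 v hv, map_zero, add_zero] at this
  rw [h.symm v hv _ (hA.mem x), this, mul_zero]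

/-- The vectors `v` with `wd u v` in the annihilator. -/
def wdSub (B : H →ₗ[ℂ] H →ₗ[ℂ] ℂ) (V : Submodule ℂ H) (ε : ℂ) (T : MF ι H) (u : H) :
    Submodule ℂ H where
  carrier := {v | v ∈ V ∧ Kills (wd B ε u v) T}
  add_mem' := fun ha hb => ⟨V.add_mem ha.1 hb.1, by rw [wd_add_right]; exact ha.2.add hb.2⟩
  zero_mem' := ⟨V.zero_mem, by rw [wd_zero_right]; exact Kills.zero⟩
  smul_mem' := fun c _ ha => ⟨V.smul_mem c ha.1, by rw [wd_smul_right]; exact ha.2.smul c⟩

theorem mem_wdSub {u v : H} : v ∈ wdSub B V ε T u ↔ v ∈ V ∧ Kills (wd B ε u v) T := Iff.rfl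

/-! ### Irreducibility -/

/-- Irreducibility from the connectedness of the intersection graph. -/
theorem irr_of_conn (h : IsForm B V ε) (hs : Submodule.span ℂ Δ = V)
    (hc : ∀ S ⊆ Δ, S.Nonempty → (∀ a ∈ S, ∀ b ∈ Δ, b ∉ S → B a b = 0) → S = Δ) : Irr B V Δ := by
  refine ⟨hs, fun W hW hΔ => ?_⟩
  by_cases h1 : (Δ ∩ W).Nonempty
  · right
    have h2 := hc (Δ ∩ W) Set.inter_subset_left h1 fun a ha b hb hb' =>
      (hΔ b hb).resolve_left (fun hbW => hb' ⟨hb, hbW⟩) a ha.2
    refine le_antisymm hW ?_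
    rw [← hs, Submodule.span_le, ← h2]
    exact Set.inter_subset_right
  · left
    rw [eq_bot_iff]
    intro w hw
    exact h.eq_zero_of_span hs (hW hw) fun δ hδ =>
      (hΔ δ hδ).resolve_left (fun hδW => h1 ⟨δ, hδ, hδW⟩) w hw

/-- Irreducibility from a monodromy representation of a group generated by mutually conjugate
meridians acting by Picard-Lefschetz transformations. -/
theorem irr_of_conj (h : IsForm B V ε) {G : Type*} [Group G] (ρ : G →* Module.End ℂ H) (M : Set G)
    (hM : Subgroup.closure M = ⊤) (δ : G → H) (c : G → ℂ) (hc : ∀ m ∈ M, c m ≠ 0)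
    (hρ : ∀ m ∈ M, ρ m = 1 + c m • rk B (δ m) (δ m)) (hs : Submodule.span ℂ (δ '' M) = V)
    (hconj : ∀ m ∈ M, ∀ m' ∈ M, IsConj m m') : Irr B V (δ '' M) := by
  refine ⟨hs, fun W hW hΔ => ?_⟩
  have hst : ∀ g : G, ∀ w ∈ W, ρ g w ∈ W := by
    intro g
    have hg : g ∈ Subgroup.closure M := hM ▸ Subgroup.mem_top g
    have key : (∀ w ∈ W, ρ g w ∈ W) ∧ ∀ w ∈ W, ρ g⁻¹ w ∈ W := by
      induction hg using Subgroup.closure_induction with
      | mem m hm =>
        have h3 : ∀ y, ρ m y = y + (c m * B y (δ m)) • δ m := by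
          intro y
          rw [hρ m hm]
          simp [smul_smul]
        have h4 : ∀ y, ρ m (ρ m⁻¹ y) = y := by
          intro y
          rw [← Module.End.mul_apply, ← map_mul, mul_inv_cancel, map_one, Module.End.one_apply]
        have h5 : ∀ y, ρ m⁻¹ (ρ m y) = y := by
          intro y
          rw [← Module.End.mul_apply, ← map_mul, inv_mul_cancel, map_one, Module.End.one_apply]
        rcases hΔ (δ m) ⟨m, hm, rfl⟩ with h1 | h1
        · refine ⟨fun w hw => ?_, fun w hw => ?_⟩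
          · rw [h3]
            exact W.add_mem hw (W.smul_mem _ h1)
          · have h6 := h3 (ρ m⁻¹ w)
            rw [h4] at h6
            rw [eq_sub_of_add_eq h6.symm]
            exact W.sub_mem hw (W.smul_mem _ h1)
        · have h6 : ∀ w ∈ W, ρ m w = w := fun w hw => by rw [h3, h1 w hw]; simp
          refine ⟨fun w hw => by rw [h6 w hw]; exact hw, fun w hw => ?_⟩
          have h7 := h5 w
          rw [h6 w hw] at h7
          rw [h7]
          exact hw
      | one => simp
      | mul a b _ _ ha hb =>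
        refine ⟨fun w hw => ?_, fun w hw => ?_⟩
        · rw [map_mul]
          exact ha.1 _ (hb.1 w hw)
        · rw [mul_inv_rev, map_mul]
          exact hb.2 _ (ha.2 w hw)
      | inv a _ ha => rw [inv_inv]; exact ⟨ha.2, ha.1⟩
    exact key.1
  by_cases h1 : ∃ m ∈ M, δ m ∈ W
  · right
    obtain ⟨m, hm, hmW⟩ := h1
    refine le_antisymm hW ?_
    rw [← hs, Submodule.span_le]
    rintro _ ⟨m', hm', rfl⟩
    obtain ⟨g, hg⟩ := isConj_iff.1 (hconj m hm m' hm')
    by_contra hcon
    have hV : δ m' ∈ V := hs ▸ Submodule.subset_span ⟨m', hm', rfl⟩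
    have h2 : δ m' ≠ 0 := fun h0 => hcon (h0 ▸ W.zero_mem)
    obtain ⟨y, hy⟩ : ∃ y, B y (δ m') ≠ 0 := by
      by_contra h3
      push Not at h3
      exact h2 (h.nondeg _ hV fun v _ => h3 v)
    have h3 : ρ m' y - y = (c m' * B y (δ m')) • δ m' := by
      rw [hρ m' hm']
      simp [smul_smul]
    have h4 : ρ m' y - y = ρ g ((c m * B (ρ g⁻¹ y) (δ m)) • δ m) := by
      have h5 : ρ g (ρ g⁻¹ y) = y := by
        rw [← Module.End.mul_apply, ← map_mul, mul_inv_cancel, map_one, Module.End.one_apply]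
      rw [← hg, map_mul, map_mul, hρ m hm]
      simp [smul_smul, h5]
    have h5 : (c m' * B y (δ m')) • δ m' ∈ W := by
      rw [← h3, h4]
      exact hst g _ (W.smul_mem _ hmW)
    exact hcon ((W.smul_mem_iff (mul_ne_zero (hc m' hm') hy)).1 h5)
  · left
    rw [eq_bot_iff]
    intro w hw
    refine h.eq_zero_of_span hs (hW hw) ?_
    rintro _ ⟨m, hm, rfl⟩
    exact (hΔ _ ⟨m, hm, rfl⟩).resolve_left (fun hδW => h1 ⟨m, hm, hδW⟩) w hw

/-! ### The skew case (Kazhdan-Margulis) -/

theorem wd_self_skew (u : H) : wd B (-1) u u = (2 : ℂ) • rk B u u := by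
  ext x; simp only [wd_apply, LinearMap.smul_apply, rk_apply]; module

theorem IsForm.self_eq_zero (h : IsForm B V (-1)) {u : H} (hu : u ∈ V) : B u u = 0 := by
  have := h.symm u hu u hu
  linear_combination this / 2

theorem kills_of_transvection (h : IsForm B V (-1)) {u : H} (hu : u ∈ V) {c : ℂ} (hc : c ≠ 0)
    (hT : Fixes (1 + c • rk B u u) T) : Kills (rk B u u) T := by
  have h1 : ∀ m : ℕ, (1 + c • rk B u u) ^ m = 1 + ((m : ℂ) * c) • rk B u u := by
    intro m
    induction m with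
    | zero => simp
    | succ m ih =>
      rw [pow_succ, ih]
      ext x
      simp only [Module.End.mul_apply, LinearMap.add_apply, Module.End.one_apply,
        LinearMap.smul_apply, rk_apply, map_add, map_smul, h.self_eq_zero hu]
      push_cast
      module
  have h2 := kills_of_infinite T (rk B u u) 0 0 0 (S := Set.range fun m : ℕ => (m : ℂ) * c)
    (Set.infinite_range_of_injective fun a b hab => by
      simpa [hc] using hab) (by
      rintro _ ⟨m, rfl⟩ v
      have := hT.pow m v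
      rw [h1] at this
      simpa using this)
  simpa using h2

theorem kills_wd_of_ne (h : IsForm B V (-1)) {u v : H} (hu : u ∈ V) (hv : v ∈ V)
    (hu' : Kills (wd B (-1) u u) T) (hv' : Kills (wd B (-1) v v) T) (huv : B u v ≠ 0) :
    Kills (wd B (-1) u v) T := by
  have h1 := hu'.lie hv'
  rw [(h.skew_wd hu hu).lie_wd hv hv, wd_apply, h.symm v hv u hu] at h1
  have h2 : (-1 * B u v) • u - (-1 * (-1 * B u v)) • u = (-2 * B u v) • u := by module
  rw [h2, wd_smul_left, wd_smul_right, wd_swap (by ring) u v] at h1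
  refine Kills.of_smul (c := -4 * B u v) (by simpa using huv) ?_
  convert h1 using 1
  module

/-- **Kazhdan-Margulis**: a form fixed by an irreducible set of transvections is killed by the
symplectic Lie algebra. -/
theorem lieInv_of_transvections [FiniteDimensional ℂ H] (h : IsForm B V (-1)) (hΔ : Irr B V Δ)
    (hT : ∀ δ ∈ Δ, ∃ c : ℂ, c ≠ 0 ∧ Fixes (1 + c • rk B δ δ) T) : LieInv B V (-1) T := by
  have h0 : ∀ δ ∈ Δ, Kills (wd B (-1) δ δ) T := by
    intro δ hδ
    obtain ⟨c, hc, hc'⟩ := hT δ hδ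
    rw [wd_self_skew]
    exact (kills_of_transvection h (hΔ.mem hδ) hc hc').smul 2
  let 𝒮 : Set (Submodule ℂ H) := {U | U ≤ V ∧ ∀ u ∈ U, ∀ v ∈ U, Kills (wd B (-1) u v) T}
  obtain ⟨U, ⟨hUV, hU⟩, hmax⟩ := set_has_maximal_iff_noetherian.2
    (inferInstance : IsNoetherian ℂ H) 𝒮 ⟨⊥, bot_le, fun u _ v hv => by
      rw [(Submodule.mem_bot ℂ).1 hv, wd_zero_right]; exact Kills.zero⟩
  have key : ∀ δ ∈ Δ, (∀ u ∈ U, Kills (wd B (-1) u δ) T) → δ ∈ U := by
    intro δ hδ h1
    by_contra hcon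
    refine hmax (U ⊔ Submodule.span ℂ {δ}) ⟨sup_le hUV ?_, ?_⟩ ?_
    · rw [Submodule.span_singleton_le_iff_mem]
      exact hΔ.mem hδ
    · intro u hu v hv
      obtain ⟨u₁, hu₁, u₂, hu₂, rfl⟩ := Submodule.mem_sup.1 hu
      obtain ⟨v₁, hv₁, v₂, hv₂, rfl⟩ := Submodule.mem_sup.1 hv
      obtain ⟨a, rfl⟩ := Submodule.mem_span_singleton.1 hu₂
      obtain ⟨b, rfl⟩ := Submodule.mem_span_singleton.1 hv₂
      rw [wd_add_left, wd_add_right, wd_add_right, wd_smul_left, wd_smul_left, wd_smul_right,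
        wd_smul_right, wd_swap (by ring) v₁ δ]
      exact ((hU _ hu₁ _ hv₁).add ((h1 _ hu₁).smul _)).add
        ((((h1 _ hv₁).smul _).smul _).add (((h0 δ hδ).smul _).smul _))
    · refine lt_of_le_of_ne le_sup_left fun h2 => hcon ?_
      rw [h2]
      exact Submodule.mem_sup_right (Submodule.mem_span_singleton_self δ)
  have h2 : U = V := by
    refine (hΔ.irr U hUV fun δ hδ => ?_).elim (fun h3 => ?_) fun h3 => h3
    swap
    · refine le_antisymm hUV ?_
      rw [← hΔ.span, Submodule.span_le]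
      intro δ hδ
      refine key δ hδ fun u hu => ?_
      rw [h3, Submodule.mem_bot] at hu
      rw [hu, wd_swap (by ring), wd_zero_right, smul_zero]
      exact Kills.zero
    · by_cases h4 : ∀ w ∈ U, B w δ = 0
      · exact Or.inr h4
      · left
        push Not at h4
        obtain ⟨w, hw, hwδ⟩ := h4
        have h5 : ∀ u ∈ U, B u δ ≠ 0 → Kills (wd B (-1) u δ) T := fun u hu hne =>
          kills_wd_of_ne h (hUV hu) (hΔ.mem hδ) (hU u hu u hu) (h0 δ hδ) hne
        refine key δ hδ fun u hu => ?_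
        by_cases h6 : B u δ = 0
        · have h7 := (h5 (u + w) (U.add_mem hu hw) (by simpa [h6] using hwδ)).sub (h5 w hw hwδ)
          rwa [wd_add_left, add_sub_cancel_right] at h7
        · exact h5 u hu h6
  intro u hu v hv
  exact hU u (h2 ▸ hu) v (h2 ▸ hv)

/-! ### The symmetric case -/

/-- The reflection in `u`. -/
noncomputable def refl (B : H →ₗ[ℂ] H →ₗ[ℂ] ℂ) (u : H) : Module.End ℂ H :=
  1 - (2 / B u u) • rk B u u

theorem refl_apply (u x : H) : refl B u x = x - (2 / B u u * B x u) • u := by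
  simp [refl, smul_smul]

theorem refl_mul_self {u : H} (hu : B u u ≠ 0) : refl B u * refl B u = 1 := by
  ext x
  simp only [Module.End.mul_apply, refl_apply, map_sub, map_smul, Module.End.one_apply]
  rw [div_mul_cancel₀ _ hu]
  module

theorem refl_smul {c : ℂ} (hc : c ≠ 0) (u : H) : refl B (c • u) = refl B u := by
  ext x
  simp only [refl_apply, map_smul, LinearMap.smul_apply, smul_eq_mul, smul_smul]
  congr 2
  by_cases hu : B u u = 0
  · simp [hu]
  · field_simp

theorem refl_mem {u x : H} (hu : u ∈ V) (hx : x ∈ V) : refl B u x ∈ V := by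
  rw [refl_apply]
  exact V.sub_mem hx (V.smul_mem _ hu)

theorem IsForm.comm (h : IsForm B V 1) {u v : H} (hu : u ∈ V) (hv : v ∈ V) : B u v = B v u := by
  rw [h.symm u hu v hv, one_mul]

theorem IsForm.refl_adj (h : IsForm B V 1) {u v : H} (hu : u ∈ V) (hv : v ∈ V) (x : H) :
    B (refl B u x) v = B x (refl B u v) := by
  simp only [refl_apply, map_sub, map_smul, LinearMap.sub_apply, LinearMap.smul_apply, smul_eq_mul]
  rw [h.comm hu hv]
  ring

theorem IsForm.refl_refl (h : IsForm B V 1) {u v : H} (hu : u ∈ V) (hu0 : B u u ≠ 0) (hv : v ∈ V)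
    (x : H) : B (refl B u x) (refl B u v) = B x v := by
  rw [h.refl_adj hu (refl_mem hu hv), ← Module.End.mul_apply, refl_mul_self hu0,
    Module.End.one_apply]

theorem IsForm.refl_conj (h : IsForm B V 1) {u v : H} (hu : u ∈ V) (hu0 : B u u ≠ 0)
    (hv : v ∈ V) : refl B (refl B u v) = refl B u * refl B v * refl B u := by
  ext x
  rw [refl_apply, h.refl_refl hu hu0 hv, ← h.refl_adj hu hv, Module.End.mul_apply,
    Module.End.mul_apply, refl_apply v, map_sub, map_smul, ← Module.End.mul_apply (refl B u),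
    refl_mul_self hu0, Module.End.one_apply]

theorem IsForm.kills_wd_apply (h : IsForm B V 1) {δ : H} (hδ : δ ∈ V) (h0 : B δ δ ≠ 0)
    (hT : Fixes (refl B δ) T) {A : Module.End ℂ H} (hA : Skew B V A) (hA' : Kills A T) :
    Kills (wd B 1 δ (A δ)) T := by
  have h1 := hA'.sub (hA'.conj hT (refl_mul_self h0))
  have h2 : B (A δ) δ = 0 := by
    have := hA.skew δ δ hδ
    rw [h.comm hδ (hA.mem δ)] at this
    linear_combination this / 2
  have h3 : A - refl B δ * A * refl B δ = (2 / B δ δ) • wd B 1 δ (A δ) := by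
    ext x
    simp only [LinearMap.sub_apply, Module.End.mul_apply, refl_apply, map_sub, map_smul,
      LinearMap.smul_apply, wd_apply, h2, eq_neg_of_add_eq_zero_left (hA.skew x δ hδ)]
    module
  rw [h3] at h1
  exact h1.of_smul (div_ne_zero two_ne_zero h0)

theorem wd_self (u : H) : wd B 1 u u = 0 := by
  ext x; simp [wd_apply]

theorem IsForm.kills_wd_of_mem (h : IsForm B V 1) {δ : H} (hδ : δ ∈ V) (h0 : B δ δ ≠ 0) {u v : H}
    (hu : u ∈ wdSub B V 1 T δ) (hv : v ∈ wdSub B V 1 T δ) : Kills (wd B 1 u v) T := by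
  have h1 := hu.2.lie hv.2
  rw [(h.skew_wd hδ hu.1).lie_wd hδ hv.1, wd_apply, wd_apply, wd_sub_left, wd_sub_right,
    wd_smul_left, wd_smul_left, wd_smul_right, wd_smul_right, wd_self, smul_zero, sub_zero] at h1
  have h2 := (h1.add (hv.2.smul (1 * B δ u))).sub (hu.2.smul (B v δ))
  refine Kills.of_smul h0 ?_
  convert h2 using 1
  module

/-- A form fixed by an irreducible set of reflections and killed by one non zero element of the
orthogonal Lie algebra is killed by all of them. -/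
theorem lieInv_of_reflections (h : IsForm B V 1) (hΔ : Irr B V Δ) (h0 : ∀ δ ∈ Δ, B δ δ ≠ 0)
    (hT : ∀ δ ∈ Δ, Fixes (refl B δ) T) {A : Module.End ℂ H} (hA : Skew B V A) (hA0 : A ≠ 0)
    (hAT : Kills A T) : LieInv B V 1 T := by
  obtain ⟨δ, hδ, hAδ⟩ : ∃ δ ∈ Δ, A δ ≠ 0 := by
    by_contra hcon
    push Not at hcon
    refine hA0 (hA.eq_zero h fun v hv => ?_)
    rw [← hΔ.span] at hv
    induction hv using Submodule.span_induction with
    | mem x hx => exact hcon x hx
    | zero => simp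
    | add x y _ _ hx hy => simp [hx, hy]
    | smul a x _ hx => simp [hx]
  have hδV := hΔ.mem hδ
  set P := wdSub B V 1 T δ with hP
  have hδP : δ ∈ P := ⟨hδV, by rw [wd_self]; exact Kills.zero⟩
  have hPV : P ≤ V := fun u hu => hu.1
  have hmem : ∀ {A' : Module.End ℂ H}, Skew B V A' → Kills A' T → A' δ ∈ P := fun h1 h2 =>
    ⟨h1.mem δ, h.kills_wd_apply hδV (h0 δ hδ) (hT δ hδ) h1 h2⟩
  have hst : ∀ {A' : Module.End ℂ H}, Skew B V A' → Kills A' T → ∀ u ∈ P, A' u ∈ P := by
    intro A' h1 h2 u hu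
    refine ⟨h1.mem u, ?_⟩
    have h3 := h2.lie hu.2
    rw [h1.lie_wd hδV hu.1] at h3
    have h4 := h3.sub (h.kills_wd_of_mem hδV (h0 δ hδ) (hmem h1 h2) hu)
    rwa [add_sub_cancel_left] at h4
  have hstar : ∀ δ' ∈ Δ, δ' ∉ P → ∀ u ∈ P, ∀ u' ∈ P, ∀ p ∈ P,
      B δ' u * B p u' = B δ' u' * B p u := by
    intro δ' hδ' hn u hu u' hu' p hp
    have hδ'V := hΔ.mem hδ'
    have h1 := h.kills_wd_apply hδ'V (h0 δ' hδ') (hT δ' hδ') (h.skew_wd hu.1 hu'.1)
      (h.kills_wd_of_mem hδV (h0 δ hδ) hu hu')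
    have hy : wd B 1 u u' δ' ∈ P := by
      rw [wd_apply]
      exact P.sub_mem (P.smul_mem _ hu') (P.smul_mem _ hu)
    have h2 := hst (h.skew_wd hδ'V hy.1) h1 p hp
    rw [wd_apply] at h2
    have h3 : (1 * B p (wd B 1 u u' δ')) • δ' ∈ P := by
      have := P.sub_mem (P.smul_mem (B p δ') hy) h2
      rwa [sub_sub_cancel] at this
    have h4 : B p (wd B 1 u u' δ') = 0 := by
      by_contra h5
      exact hn ((P.smul_mem_iff (by simpa using h5)).1 h3)
    rw [wd_apply, map_sub, map_smul, map_smul, smul_eq_mul, smul_eq_mul] at h4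
    linear_combination h4
  have hAδδ : B δ (A δ) = 0 := by
    have := hA.skew δ δ hδV
    rw [h.comm (hA.mem δ) hδV] at this
    linear_combination this / 2
  have hPeq : P = V := by
    refine (hΔ.irr P hPV fun δ' hδ' => ?_).elim (fun h3 => ?_) fun h3 => h3
    swap
    · rw [h3, Submodule.mem_bot] at hδP
      exact absurd (by simp [hδP]) (h0 δ hδ)
    · by_contra hcon
      push Not at hcon
      obtain ⟨hn, w, hw, hwδ⟩ := hcon
      have hy := hmem hA hAT
      have hne : B δ' δ ≠ 0 := by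
        intro h5
        have h6 := hstar δ' hδ' hn w hw δ hδP δ hδP
        rw [h5, zero_mul, ← h.comm hw.1 (hΔ.mem hδ')] at h6
        exact mul_ne_zero hwδ (h0 δ hδ) h6
      have hout : ∀ δ'' ∈ Δ, δ'' ∉ P → B δ'' (A δ) = 0 := by
        intro δ'' h1 h2
        have h6 := hstar δ'' h1 h2 (A δ) hy δ hδP δ hδP
        rw [hAδδ, mul_zero] at h6
        exact (mul_eq_zero.1 h6).resolve_right (h0 δ hδ)
      refine hAδ (h.eq_zero_of_span hΔ.span (hA.mem δ) fun δ'' h1 => ?_)
      rw [h.comm (hA.mem δ) (hΔ.mem h1)]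
      by_cases h2 : δ'' ∈ P
      · have h6 := hstar δ' hδ' hn (A δ) hy δ hδP δ'' h2
        rw [hout δ' hδ' hn, zero_mul] at h6
        exact (mul_eq_zero.1 h6.symm).resolve_left hne
      · exact hout δ'' h1 h2
  intro u hu v hv
  exact h.kills_wd_of_mem hδV (h0 δ hδ) (hPeq ▸ hu : u ∈ P) (hPeq ▸ hv : v ∈ P)

end Vale.Agent.P269.Inv
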