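import Mathlib

/-!
# P269, invariant theory: multilinear forms, their stabilisers and annihilators (helper4)

For a multilinear form `T` on `H ^ ι` over `ℂ`: `der A T` is the derivation action of an
endomorphism `A`, `Kills A T` says that it vanishes, `Fixes g T` says that `T ∘ g = T`.
We prove the closure properties and the two passages between the group and the Lie algebra
(differentiate a polynomial family, integrate a one parameter family).
-/

open Function

namespace Vale.Agent.P269.Inv

variable {ι H : Type*} [Fintype ι] [DecidableEq ι] [AddCommGroup H] [Module ℂ H]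

/-- Multilinear forms on `H ^ ι`. -/
abbrev MF (ι H : Type*) [AddCommGroup H] [Module ℂ H] := MultilinearMap ℂ (fun _ : ι => H) ℂ

/-- The endomorphism `A` acting in slot `i`. -/
noncomputable def act (A : Module.End ℂ H) (i : ι) (T : MF ι H) : MF ι H :=
  T.compLinearMap (update (fun _ => LinearMap.id) i A)

omit [Fintype ι] in
theorem act_apply (A : Module.End ℂ H) (i : ι) (T : MF ι H) (v : ι → H) :
    act A i T v = T (update v i (A (v i))) := by
  simp only [act, MultilinearMap.compLinearMap_apply]
  congr 1
  funext j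
  by_cases h : j = i
  · subst h; simp
  · simp [update_of_ne h]

/-- The derivation action of `A` on forms. -/
noncomputable def der (A : Module.End ℂ H) (T : MF ι H) : MF ι H := ∑ i, act A i T

theorem der_apply (A : Module.End ℂ H) (T : MF ι H) (v : ι → H) :
    der A T v = ∑ i, T (update v i (A (v i))) := by
  simp only [der, sum_apply, act_apply]

/-- `A` kills `T`. -/
def Kills (A : Module.End ℂ H) (T : MF ι H) : Prop :=
  ∀ v : ι → H, ∑ i, T (update v i (A (v i))) = 0

/-- `g` fixes `T`. -/
def Fixes (g : Module.End ℂ H) (T : MF ι H) : Prop :=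
  ∀ v : ι → H, T (fun i => g (v i)) = T v

theorem kills_iff {A : Module.End ℂ H} {T : MF ι H} : Kills A T ↔ der A T = 0 := by
  constructor
  · intro h
    ext v
    rw [der_apply]
    exact h v
  · intro h v
    rw [← der_apply, h]
    rfl

theorem der_add (A A' : Module.End ℂ H) (T : MF ι H) : der (A + A') T = der A T + der A' T := by
  ext v
  simp only [der_apply, add_apply, LinearMap.add_apply, T.map_update_add,
    Finset.sum_add_distrib]

theorem der_smul (c : ℂ) (A : Module.End ℂ H) (T : MF ι H) : der (c • A) T = c • der A T := by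
  ext v
  simp only [der_apply, smul_apply, LinearMap.smul_apply, T.map_update_smul,
    Finset.smul_sum]

theorem der_zero (T : MF ι H) : der (0 : Module.End ℂ H) T = 0 := by
  have := der_smul 0 (0 : Module.End ℂ H) T
  rwa [zero_smul, zero_smul] at this

theorem der_neg (A : Module.End ℂ H) (T : MF ι H) : der (-A) T = -der A T := by
  have := der_smul (-1) A T
  rwa [neg_one_smul, neg_one_smul] at this

theorem der_sub (A A' : Module.End ℂ H) (T : MF ι H) : der (A - A') T = der A T - der A' T := by
  rw [sub_eq_add_neg, der_add, der_neg, sub_eq_add_neg]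

theorem der_sum {κ : Type*} (s : Finset κ) (A : κ → Module.End ℂ H) (T : MF ι H) :
    der (∑ a ∈ s, A a) T = ∑ a ∈ s, der (A a) T := by
  classical
  induction s using Finset.induction_on with
  | empty => simp [der_zero]
  | insert a s ha ih => rw [Finset.sum_insert ha, Finset.sum_insert ha, der_add, ih]

theorem der_add_right (A : Module.End ℂ H) (T T' : MF ι H) :
    der A (T + T') = der A T + der A T' := by
  ext v
  simp only [der_apply, add_apply, Finset.sum_add_distrib]

theorem der_smul_right (c : ℂ) (A : Module.End ℂ H) (T : MF ι H) :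
    der A (c • T) = c • der A T := by
  ext v
  simp only [der_apply, smul_apply, Finset.smul_sum]

theorem der_zero_right (A : Module.End ℂ H) : der A (0 : MF ι H) = 0 := by
  ext v
  simp [der_apply]

theorem der_neg_right (A : Module.End ℂ H) (T : MF ι H) : der A (-T) = -der A T := by
  have := der_smul_right (-1) A T
  rwa [neg_one_smul, neg_one_smul] at this

theorem der_one (T : MF ι H) : der (1 : Module.End ℂ H) T = (Fintype.card ι : ℂ) • T := by
  ext v
  simp [der_apply]

/-- The double derivation, split into the diagonal and the off diagonal terms. -/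
theorem der_der_apply (A A' : Module.End ℂ H) (T : MF ι H) (v : ι → H) :
    der A (der A' T) v = der (A' * A) T v +
      ∑ i, ∑ j ∈ Finset.univ.erase i, T (update (update v i (A (v i))) j (A' (v j))) := by
  rw [der_apply, der_apply, ← Finset.sum_add_distrib]
  refine Finset.sum_congr rfl fun i _ => ?_
  rw [der_apply, ← Finset.add_sum_erase _ _ (Finset.mem_univ i)]
  simp only [update_self, update_idem, Module.End.mul_apply]
  congr 1
  refine Finset.sum_congr rfl fun j hj => ?_
  rw [update_of_ne (Finset.ne_of_mem_erase hj)]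

theorem sum_erase_comm {M : Type*} [AddCommMonoid M] (f : ι → ι → M) :
    ∑ i, ∑ j ∈ Finset.univ.erase i, f i j = ∑ j, ∑ i ∈ Finset.univ.erase j, f i j := by
  refine Finset.sum_comm' fun i j => ?_
  simp only [Finset.mem_univ, Finset.mem_erase, ne_eq, and_true, true_and]
  exact ⟨fun h h' => h h'.symm, fun h h' => h h'.symm⟩

theorem der_lie (A A' : Module.End ℂ H) (T : MF ι H) :
    der (A * A' - A' * A) T = der A' (der A T) - der A (der A' T) := by
  ext v
  rw [sub_apply, der_der_apply, der_der_apply, der_sub, sub_apply]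
  have : ∑ i, ∑ j ∈ Finset.univ.erase i, T (update (update v i (A' (v i))) j (A (v j))) =
      ∑ i, ∑ j ∈ Finset.univ.erase i, T (update (update v i (A (v i))) j (A' (v j))) := by
    rw [sum_erase_comm]
    refine Finset.sum_congr rfl fun i _ => Finset.sum_congr rfl fun j hj => ?_
    rw [update_comm (Finset.ne_of_mem_erase hj)]
  rw [this]
  ring

namespace Kills

variable {A A' : Module.End ℂ H} {T : MF ι H}

theorem zero : Kills (0 : Module.End ℂ H) T := kills_iff.2 (der_zero T)

theorem add (h : Kills A T) (h' : Kills A' T) : Kills (A + A') T :=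
  kills_iff.2 (by rw [der_add, kills_iff.1 h, kills_iff.1 h', add_zero])

theorem smul (c : ℂ) (h : Kills A T) : Kills (c • A) T :=
  kills_iff.2 (by rw [der_smul, kills_iff.1 h, smul_zero])

theorem neg (h : Kills A T) : Kills (-A) T :=
  kills_iff.2 (by rw [der_neg, kills_iff.1 h, neg_zero])

theorem sub (h : Kills A T) (h' : Kills A' T) : Kills (A - A') T :=
  kills_iff.2 (by rw [der_sub, kills_iff.1 h, kills_iff.1 h', sub_zero])

theorem of_smul {c : ℂ} (hc : c ≠ 0) (h : Kills (c • A) T) : Kills A T := by
  have := h.smul c⁻¹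
  rwa [smul_smul, inv_mul_cancel₀ hc, one_smul] at this

theorem sum {κ : Type*} (s : Finset κ) {A : κ → Module.End ℂ H} (h : ∀ a ∈ s, Kills (A a) T) :
    Kills (∑ a ∈ s, A a) T :=
  kills_iff.2 (by rw [der_sum]; exact Finset.sum_eq_zero fun a ha => kills_iff.1 (h a ha))

theorem lie (h : Kills A T) (h' : Kills A' T) : Kills (A * A' - A' * A) T :=
  kills_iff.2 (by rw [der_lie, kills_iff.1 h, kills_iff.1 h', der_zero_right, der_zero_right,
    sub_zero])

/-- Conjugation by an invertible element of the stabiliser. -/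
theorem conj {g g' : Module.End ℂ H} (h : Kills A T) (hg : Fixes g T) (hgg : g * g' = 1) :
    Kills (g * A * g') T := by
  intro v
  have h1 := h fun i => g' (v i)
  rw [← h1]
  refine Finset.sum_congr rfl fun i _ => ?_
  rw [← hg (update (fun i => g' (v i)) i (A (g' (v i))))]
  congr 1
  funext j
  by_cases hj : j = i
  · subst hj; simp
  · simp only [update_of_ne hj]
    rw [← Module.End.mul_apply, hgg, Module.End.one_apply]

end Kills

/-- The annihilator of a form, as a submodule. -/
def ann (T : MF ι H) : Submodule ℂ (Module.End ℂ H) where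
  carrier := {A | Kills A T}
  add_mem' := Kills.add
  zero_mem' := Kills.zero
  smul_mem' := fun c _ h => h.smul c

theorem mem_ann {T : MF ι H} {A : Module.End ℂ H} : A ∈ ann T ↔ Kills A T := Iff.rfl

namespace Fixes

variable {g g' : Module.End ℂ H} {T : MF ι H}

omit [Fintype ι] [DecidableEq ι] in
theorem one : Fixes (1 : Module.End ℂ H) T := fun _ => rfl

omit [Fintype ι] [DecidableEq ι] in
theorem mul (h : Fixes g T) (h' : Fixes g' T) : Fixes (g * g') T := fun v =>
  (h fun i => g' (v i)).trans (h' v)

omit [Fintype ι] [DecidableEq ι] in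
theorem inv (h : Fixes g T) (hg : g * g' = 1) : Fixes g' T := by
  intro v
  rw [← h fun i => g' (v i)]
  congr 1
  funext i
  rw [← Module.End.mul_apply, hg, Module.End.one_apply]

omit [Fintype ι] [DecidableEq ι] in
theorem pow (h : Fixes g T) (m : ℕ) : Fixes (g ^ m) T := by
  induction m with
  | zero => rw [pow_zero]; exact one
  | succ m ih => rw [pow_succ]; exact ih.mul h

end Fixes

/-! ### Curves -/

section Curves

variable {κ : Type*} [Fintype κ]

theorem map_curve (T : MF ι H) (x : ι → κ → H) (c : ι → κ → ℂ) :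
    T (fun i => ∑ a, c i a • x i a) = ∑ r : ι → κ, (∏ i, c i (r i)) * T fun i => x i (r i) := by
  rw [T.map_sum]
  refine Finset.sum_congr rfl fun r _ => ?_
  rw [T.map_smul_univ, smul_eq_mul]

theorem hasDerivAt_curve (T : MF ι H) (x : ι → κ → H) {f : ι → κ → ℂ → ℂ} {f' : ι → κ → ℂ}
    {t₀ : ℂ} (hf : ∀ i a, HasDerivAt (f i a) (f' i a) t₀) :
    HasDerivAt (fun t => T fun i => ∑ a, f i a t • x i a)
      (∑ i, T (update (fun j => ∑ a, f j a t₀ • x j a) i (∑ a, f' i a • x i a))) t₀ := by
  have h1 : (fun t => T fun i => ∑ a, f i a t • x i a) =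
      fun t => ∑ r : ι → κ, (∏ i, f i (r i) t) * T fun i => x i (r i) := by
    funext t
    exact map_curve T x fun i a => f i a t
  rw [h1]
  have h2 : ∀ i, T (update (fun j => ∑ a, f j a t₀ • x j a) i (∑ a, f' i a • x i a)) =
      ∑ r : ι → κ, ((∏ j ∈ Finset.univ.erase i, f j (r j) t₀) * f' i (r i)) *
        T fun j => x j (r j) := by
    intro i
    have h3 : update (fun j => ∑ a, f j a t₀ • x j a) i (∑ a, f' i a • x i a) =
        fun j => ∑ a, (update (fun j a => f j a t₀) i (f' i)) j a • x j a := by
      funext j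
      by_cases hj : j = i
      · subst hj; simp
      · simp [update_of_ne hj]
    rw [h3, map_curve]
    refine Finset.sum_congr rfl fun r _ => ?_
    congr 1
    rw [← Finset.prod_erase_mul _ _ (Finset.mem_univ i), update_self]
    congr 1
    refine Finset.prod_congr rfl fun j hj => ?_
    rw [update_of_ne (Finset.ne_of_mem_erase hj)]
  simp only [h2]
  rw [Finset.sum_comm]
  refine HasDerivAt.fun_sum fun r _ => ?_
  rw [← Finset.sum_mul]
  refine HasDerivAt.mul_const ?_ _
  have := HasDerivAt.fun_finsetProd (u := Finset.univ) (f := fun i t => f i (r i) t)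
    (f' := fun i => f' i (r i)) (x := t₀) fun i _ => hf i (r i)
  simpa only [smul_eq_mul] using this

theorem exists_poly_curve (T : MF ι H) (x : ι → κ → H) (p : ι → κ → Polynomial ℂ) :
    ∃ P : Polynomial ℂ, ∀ t, T (fun i => ∑ a, (p i a).eval t • x i a) = P.eval t := by
  refine ⟨∑ r : ι → κ, (∏ i, p i (r i)) * Polynomial.C (T fun i => x i (r i)), fun t => ?_⟩
  rw [map_curve T x fun i a => (p i a).eval t]
  simp only [Polynomial.eval_finsetSum, Polynomial.eval_mul, Polynomial.eval_prod,
    Polynomial.eval_C]

/-- A polynomial family `g t = 1 + t g₁ + t² g₂` which rescales `T` by `(1 + t q₁ + t² q₂) ^ n` for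
infinitely many `t` gives an element of the annihilator. -/
theorem kills_of_infinite (T : MF ι H) (g₁ g₂ : Module.End ℂ H) (q₁ q₂ : ℂ) {S : Set ℂ}
    (hS : S.Infinite) (h : ∀ t ∈ S, ∀ v, T (fun i => v i + t • g₁ (v i) + t ^ 2 • g₂ (v i)) =
      (1 + t * q₁ + t ^ 2 * q₂) ^ Fintype.card ι * T v) :
    Kills (g₁ - q₁ • 1) T := by
  intro v
  let x : ι → Fin 3 → H := fun i => ![v i, g₁ (v i), g₂ (v i)]
  let p : ι → Fin 3 → Polynomial ℂ := fun _ => ![1, Polynomial.X, Polynomial.X ^ 2]
  have hx : ∀ t : ℂ, (fun i => ∑ a, (p i a).eval t • x i a) =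
      fun i => v i + t • g₁ (v i) + t ^ 2 • g₂ (v i) := by
    intro t
    funext i
    simp [x, p, Fin.sum_univ_three]
  obtain ⟨P, hP⟩ := exists_poly_curve T x p
  let Q : Polynomial ℂ := (1 + Polynomial.X * Polynomial.C q₁ +
    Polynomial.X ^ 2 * Polynomial.C q₂) ^ Fintype.card ι * Polynomial.C (T v)
  have hQ : ∀ t, Q.eval t = (1 + t * q₁ + t ^ 2 * q₂) ^ Fintype.card ι * T v := by
    intro t
    simp only [Q, Polynomial.eval_mul, Polynomial.eval_pow, Polynomial.eval_add,
      Polynomial.eval_one, Polynomial.eval_X, Polynomial.eval_C]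
  have hPQ : P = Q := by
    refine Polynomial.eq_of_infinite_eval_eq P Q (hS.mono fun t ht => ?_)
    change P.eval t = Q.eval t
    rw [← hP, hx, h t ht, hQ]
  have h1 : HasDerivAt (fun t => T fun i => ∑ a, (p i a).eval t • x i a)
      (∑ i, T (update (fun j => ∑ a, (p j a).eval 0 • x j a) i
        (∑ a, (p i a).derivative.eval 0 • x i a))) 0 :=
    hasDerivAt_curve T x fun i a => (p i a).hasDerivAt 0
  have h2 : (fun t => T fun i => ∑ a, (p i a).eval t • x i a) =
      fun t => (1 + t * q₁ + t ^ 2 * q₂) ^ Fintype.card ι * T v := by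
    funext t
    rw [hP, hPQ, hQ]
  have h3 : HasDerivAt (fun t : ℂ => (1 + t * q₁ + t ^ 2 * q₂) ^ Fintype.card ι * T v)
      ((Fintype.card ι : ℂ) * q₁ * T v) 0 := by
    have h4 : HasDerivAt (fun t : ℂ => 1 + t * q₁ + t ^ 2 * q₂) q₁ 0 := by
      have := (((hasDerivAt_id (0 : ℂ)).mul_const q₁).const_add 1).fun_add
        ((hasDerivAt_pow 2 (0 : ℂ)).mul_const q₂)
      simpa using this
    have := (h4.fun_pow (Fintype.card ι)).mul_const (T v)
    simpa using this
  rw [h2] at h1
  have h5 := h1.unique h3
  have h6 : ∀ i, (∑ a, (p i a).derivative.eval 0 • x i a) = g₁ (v i) := by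
    intro i
    simp [x, p, Fin.sum_univ_three]
  have h7 : (fun j => ∑ a, (p j a).eval 0 • x j a) = v := by
    rw [hx]
    funext i
    simp
  simp only [h6, h7] at h5
  rw [← der_apply, der_sub, der_smul, der_one, sub_apply, der_apply, h5]
  simp only [smul_apply, smul_eq_mul]
  ring

/-- Integration of a one parameter family. -/
theorem fixes_of_kills {T : MF ι H} {A : Module.End ℂ H} (hA : Kills A T)
    (g : κ → Module.End ℂ H) {f f' : κ → ℂ → ℂ} (hf : ∀ a t, HasDerivAt (f a) (f' a t) t)
    (h0 : ∑ a, f a 0 • g a = 1) (hd : ∀ t, ∑ a, f' a t • g a = A * ∑ a, f a t • g a) (t : ℂ) :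
    Fixes (∑ a, f a t • g a) T := by
  intro v
  have h1 : ∀ t, HasDerivAt (fun t => T fun i => ∑ a, f a t • g a (v i)) 0 t := by
    intro t
    have h2 := hasDerivAt_curve T (fun i a => g a (v i)) (f := fun _ a => f a)
      (f' := fun _ a => f' a t) (t₀ := t) fun _ a => hf a t
    have h3 : ∀ i, ∑ a, f' a t • g a (v i) = A (∑ a, f a t • g a (v i)) := by
      intro i
      have := congrArg (fun B : Module.End ℂ H => B (v i)) (hd t)
      simpa [LinearMap.sum_apply] using this
    simp only [h3] at h2
    rwa [hA fun j => ∑ a, f a t • g a (v j)] at h2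
  have h4 := is_const_of_deriv_eq_zero (fun t => (h1 t).differentiableAt)
    (fun t => (h1 t).deriv) t 0
  have h5 : ∀ s i, (∑ a, f a s • g a) (v i) = ∑ a, f a s • g a (v i) := by
    intro s i
    simp [LinearMap.sum_apply]
  simp only [h5]
  rw [h4]
  simp only [← h5, h0, Module.End.one_apply]

/-- The exponential of an element of cube zero. -/
theorem Kills.fixes_of_cube {T : MF ι H} {A : Module.End ℂ H} (hA : Kills A T)
    (h3 : A * A * A = 0) (t : ℂ) : Fixes (1 + t • A + (t ^ 2 / 2) • (A * A)) T := by
  have := fixes_of_kills hA ![1, A, A * A] (f := ![fun _ => 1, fun t => t, fun t => t ^ 2 / 2])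
    (f' := ![fun _ => 0, fun _ => 1, fun t => t]) ?_ ?_ ?_ t
  · simpa [Fin.sum_univ_three] using this
  · intro a t
    fin_cases a
    · exact hasDerivAt_const t 1
    · exact hasDerivAt_id t
    · have := (hasDerivAt_pow 2 t).div_const 2
      simpa using this
  · simp [Fin.sum_univ_three]
  · intro t
    simp [Fin.sum_univ_three, mul_add, ← mul_assoc, h3]

/-- The exponential of an element of square zero. -/
theorem Kills.fixes_of_sq {T : MF ι H} {A : Module.End ℂ H} (hA : Kills A T)
    (h2 : A * A = 0) (t : ℂ) : Fixes (1 + t • A) T := by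
  have := hA.fixes_of_cube (by rw [h2, zero_mul]) t
  rwa [h2, smul_zero, add_zero] at this

/-- The exponential of a difference of two orthogonal idempotents. -/
theorem Kills.fixes_of_idem {T : MF ι H} {P Q : Module.End ℂ H} (hA : Kills (P - Q) T)
    (hP : P * P = P) (hQ : Q * Q = Q) (hPQ : P * Q = 0) (hQP : Q * P = 0) {z : ℂ} (hz : z ≠ 0) :
    Fixes (1 + (z - 1) • P + (z⁻¹ - 1) • Q) T := by
  have := fixes_of_kills hA ![1, P, Q]
    (f := ![fun _ => 1, fun t => Complex.exp t - 1, fun t => Complex.exp (-t) - 1])
    (f' := ![fun _ => 0, fun t => Complex.exp t, fun t => -Complex.exp (-t)]) ?_ ?_ ?_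
      (Complex.log z)
  · simpa [Fin.sum_univ_three, Complex.exp_neg, Complex.exp_log hz] using this
  · intro a t
    fin_cases a
    · exact hasDerivAt_const t 1
    · exact (Complex.hasDerivAt_exp t).sub_const 1
    · have := ((Complex.hasDerivAt_exp (-t)).comp t (hasDerivAt_neg t)).sub_const 1
      simpa using this
  · simp [Fin.sum_univ_three]
  · intro t
    simp only [Fin.sum_univ_three, Matrix.cons_val_zero, Matrix.cons_val_one, Matrix.cons_val_two,
      Matrix.head_cons, Matrix.tail_cons, zero_smul, one_smul, zero_add, mul_add, mul_one,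
      mul_smul_comm, sub_mul, hP, hQ, hPQ, hQP, sub_zero, zero_sub]
    module

end Curves

end Vale.Agent.P269.Inv
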