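import Vale.Agent.P269.Inv.Group

/-!
# P269, invariant theory: Lie algebras of operators `p ⊗ A` (helper4)

`φ p A` is an abstract tensor product of an element `p` of a ring `R` (differential operators in
`z`) and an endomorphism `A` of `H`; `𝔞` is a Lie algebra of operators (those killing the
potential).
-/

open Function

namespace Vale.Agent.P269.Inv

variable {H : Type*} [AddCommGroup H] [Module ℂ H]
variable {B : H →ₗ[ℂ] H →ₗ[ℂ] ℂ} {V : Submodule ℂ H} {ε : ℂ}
variable {R E : Type*} [Ring R] [Algebra ℂ R] [Ring E] [Algebra ℂ E]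

/-- `A'` is the adjoint of `A`, both being supported on `V`. -/
structure Adj (B : H →ₗ[ℂ] H →ₗ[ℂ] ℂ) (V : Submodule ℂ H) (A A' : Module.End ℂ H) : Prop where
  mem : ∀ x, A x ∈ V
  mem' : ∀ x, A' x ∈ V
  adj : ∀ x, ∀ v ∈ V, B (A x) v = B x (A' v)
  adj' : ∀ x, ∀ v ∈ V, B (A' x) v = B x (A v)

theorem Adj.symm {A A' : Module.End ℂ H} (h : Adj B V A A') : Adj B V A' A :=
  ⟨h.mem', h.mem, h.adj', h.adj⟩

theorem Skew.adj {A : Module.End ℂ H} (h : Skew B V A) : Adj B V A (-A) :=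
  ⟨h.mem, fun x => V.neg_mem (h.mem x),
    fun x v hv => by simpa using eq_neg_of_add_eq_zero_left (h.skew x v hv),
    fun x v hv => by simpa using neg_eq_of_add_eq_zero_right (h.skew x v hv)⟩

theorem Adj.mul {A A' C C' : Module.End ℂ H} (h : Adj B V A A') (h' : Adj B V C C') :
    Adj B V (A * C) (C' * A') :=
  ⟨fun _ => h.mem _, fun _ => h'.mem' _,
    fun x v hv => by rw [Module.End.mul_apply, h.adj _ _ hv, h'.adj _ _ (h.mem' v)]; rfl,
    fun x v hv => by rw [Module.End.mul_apply, h'.adj' _ _ hv, h.adj' _ _ (h'.mem v)]; rfl⟩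

theorem Adj.smul {A A' : Module.End ℂ H} (h : Adj B V A A') (c : ℂ) : Adj B V (c • A) (c • A') :=
  ⟨fun x => V.smul_mem c (h.mem x), fun x => V.smul_mem c (h.mem' x),
    fun x v hv => by simp [h.adj x v hv], fun x v hv => by simp [h.adj' x v hv]⟩

theorem Adj.sub {A A' C C' : Module.End ℂ H} (h : Adj B V A A') (h' : Adj B V C C') :
    Adj B V (A - C) (A' - C') :=
  ⟨fun x => V.sub_mem (h.mem x) (h'.mem x), fun x => V.sub_mem (h.mem' x) (h'.mem' x),
    fun x v hv => by simp [h.adj x v hv, h'.adj x v hv],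
    fun x v hv => by simp [h.adj' x v hv, h'.adj' x v hv]⟩

theorem IsForm.adj_rk (h : IsForm B V ε) {u v : H} (hu : u ∈ V) (hv : v ∈ V) :
    Adj B V (rk B u v) (ε • rk B v u) := by
  refine ⟨fun x => V.smul_mem _ hv, fun x => V.smul_mem _ (V.smul_mem _ hu),
    fun x y hy => ?_, fun x y hy => ?_⟩
  · simp only [rk_apply, map_smul, LinearMap.smul_apply, smul_eq_mul, h.symm v hv y hy]
    ring
  · simp only [rk_apply, map_smul, LinearMap.smul_apply, smul_eq_mul, h.symm y hy u hu]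
    ring

section Frame

variable {κ : Type*} [Fintype κ] {e f : κ → H}

/-- The projection onto `V`. -/
noncomputable def proj (B : H →ₗ[ℂ] H →ₗ[ℂ] ℂ) (e f : κ → H) : Module.End ℂ H :=
  ∑ a, rk B (f a) (e a)

theorem proj_apply (x : H) : proj B e f x = ∑ a, B x (f a) • e a := by
  simp [proj, LinearMap.sum_apply]

theorem Frame.proj_of_mem (hF : Frame B V e f) {x : H} (hx : x ∈ V) : proj B e f x = x := by
  rw [proj_apply, hF.expand x hx]

theorem Frame.proj_mem (hF : Frame B V e f) (x : H) : proj B e f x ∈ V := by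
  rw [proj_apply]
  exact V.sum_mem fun a _ => V.smul_mem _ (hF.e_mem a)

theorem Frame.pair_proj (h : IsForm B V ε) (hF : Frame B V e f) (x : H) {v : H} (hv : v ∈ V) :
    B (proj B e f x) v = B x v := by
  conv_rhs => rw [← hF.expand' h hv]
  simp [proj_apply, LinearMap.sum_apply, mul_comm]

theorem Frame.adj_proj (h : IsForm B V ε) (hF : Frame B V e f) :
    Adj B V (proj B e f) (proj B e f) :=
  ⟨hF.proj_mem, hF.proj_mem, fun x v hv => by rw [hF.pair_proj h x hv, hF.proj_of_mem hv],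
    fun x v hv => by rw [hF.pair_proj h x hv, hF.proj_of_mem hv]⟩

theorem Adj.mul_proj (h : IsForm B V ε) (hF : Frame B V e f) {A A' : Module.End ℂ H}
    (hA : Adj B V A A') : A * proj B e f = A := by
  ext x
  rw [← sub_eq_zero]
  refine h.nondeg _ (V.sub_mem (hA.mem _) (hA.mem _)) fun v hv => ?_
  rw [Module.End.mul_apply, h.symm v hv _ (V.sub_mem (hA.mem _) (hA.mem _)), map_sub,
    LinearMap.sub_apply, hA.adj _ _ hv, hA.adj _ _ hv, hF.pair_proj h x (hA.mem' v), sub_self,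
    mul_zero]

theorem Adj.proj_mul (hF : Frame B V e f) {A A' : Module.End ℂ H} (hA : Adj B V A A') :
    proj B e f * A = A := by
  ext x
  exact hF.proj_of_mem (hA.mem x)

theorem Adj.eq_sum (h : IsForm B V ε) (hF : Frame B V e f) {A A' : Module.End ℂ H}
    (hA : Adj B V A A') : A = ∑ a, rk B (f a) (A (e a)) := by
  conv_lhs => rw [← hA.mul_proj h hF]
  ext x
  simp [proj_apply, LinearMap.sum_apply]

theorem Adj.eq_sum' (h : IsForm B V ε) (hF : Frame B V e f) {A A' : Module.End ℂ H}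
    (hA : Adj B V A A') : A' = ∑ a, ε • rk B (A (e a)) (f a) := by
  ext x
  rw [← hF.expand' h (hA.mem' x)]
  simp only [LinearMap.sum_apply, LinearMap.smul_apply, rk_apply, smul_smul]
  refine Finset.sum_congr rfl fun a _ => ?_
  rw [h.symm _ (hF.e_mem a) _ (hA.mem' x), hA.adj' _ _ (hF.e_mem a)]

/-- The trace of an endomorphism supported on `V`. -/
noncomputable def tr (B : H →ₗ[ℂ] H →ₗ[ℂ] ℂ) (e f : κ → H) (A : Module.End ℂ H) : ℂ :=
  ∑ a, B (A (e a)) (f a)

theorem tr_sub (A C : Module.End ℂ H) : tr B e f (A - C) = tr B e f A - tr B e f C := by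
  simp [tr, Finset.sum_sub_distrib]

theorem tr_smul (c : ℂ) (A : Module.End ℂ H) : tr B e f (c • A) = c * tr B e f A := by
  simp [tr, Finset.mul_sum]

theorem Adj.tr_eq_trace [FiniteDimensional ℂ H] (h : IsForm B V ε) (hF : Frame B V e f)
    {A A' : Module.End ℂ H} (hA : Adj B V A A') : tr B e f A = LinearMap.trace ℂ H A := by
  conv_rhs => rw [hA.eq_sum h hF]
  rw [map_sum, tr]
  refine Finset.sum_congr rfl fun a _ => ?_
  rw [rk, LinearMap.trace_smulRight]
  rfl

theorem Frame.trace_proj [FiniteDimensional ℂ H] (hF : Frame B V e f) :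
    LinearMap.trace ℂ H (proj B e f) = Module.finrank ℂ V :=
  LinearMap.IsProj.trace ⟨hF.proj_mem, fun _ hx => hF.proj_of_mem hx⟩

end Frame

/-- The abstract tensor product and the Lie algebra `𝔞`. -/
structure Tens (φ : R →ₗ[ℂ] Module.End ℂ H →ₗ[ℂ] E) (𝔞 : Submodule ℂ E) : Prop where
  mul : ∀ p q a b, φ p a * φ q b = φ (p * q) (a * b)
  lie : ∀ x ∈ 𝔞, ∀ y ∈ 𝔞, x * y - y * x ∈ 𝔞

/-- `p ⊗ A - p' ⊗ A^*` lies in `𝔞` for all traceless `A` of rank one. -/
def InJ (B : H →ₗ[ℂ] H →ₗ[ℂ] ℂ) (V : Submodule ℂ H) (ε : ℂ)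
    (φ : R →ₗ[ℂ] Module.End ℂ H →ₗ[ℂ] E) (𝔞 : Submodule ℂ E) (p p' : R) : Prop :=
  ∀ u ∈ V, ∀ v ∈ V, B u v = 0 → φ p (rk B u v) - φ p' (ε • rk B v u) ∈ 𝔞

variable {φ : R →ₗ[ℂ] Module.End ℂ H →ₗ[ℂ] E} {𝔞 : Submodule ℂ E}

namespace InJ

variable {p p' q q' : R}

theorem zero : InJ B V ε φ 𝔞 0 0 := fun _ _ _ _ _ => by simp

theorem add (hp : InJ B V ε φ 𝔞 p p') (hq : InJ B V ε φ 𝔞 q q') :
    InJ B V ε φ 𝔞 (p + q) (p' + q') := fun u hu v hv h0 => by
  have := 𝔞.add_mem (hp u hu v hv h0) (hq u hu v hv h0)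
  simp only [map_add, LinearMap.add_apply]
  convert this using 1
  abel

theorem smul (hp : InJ B V ε φ 𝔞 p p') (c : ℂ) : InJ B V ε φ 𝔞 (c • p) (c • p') :=
  fun u hu v hv h0 => by
    have := 𝔞.smul_mem c (hp u hu v hv h0)
    rw [map_smul φ, map_smul φ, LinearMap.smul_apply, LinearMap.smul_apply, ← smul_sub]
    exact this

theorem sum {κ : Type*} (s : Finset κ) {p p' : κ → R} (h : ∀ i ∈ s, InJ B V ε φ 𝔞 (p i) (p' i)) :
    InJ B V ε φ 𝔞 (∑ i ∈ s, p i) (∑ i ∈ s, p' i) := by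
  classical
  induction s using Finset.induction_on with
  | empty => simpa using zero
  | insert a s ha ih =>
    rw [Finset.sum_insert ha, Finset.sum_insert ha]
    exact (h a (Finset.mem_insert_self a s)).add
      (ih fun i hi => h i (Finset.mem_insert_of_mem hi))

end InJ

theorem rk_add_left (u u' v : H) : rk B (u + u') v = rk B u v + rk B u' v := by
  ext x; simp [add_smul]

theorem rk_add_right (u v v' : H) : rk B u (v + v') = rk B u v + rk B u v' := by
  ext x; simp

theorem rk_smul_left (c : ℂ) (u v : H) : rk B (c • u) v = c • rk B u v := by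
  ext x; simp [smul_smul]

theorem rk_smul_right (c : ℂ) (u v : H) : rk B u (c • v) = c • rk B u v := by
  ext x; simp [smul_comm c]

theorem rk_mul_rk (u v u' v' : H) : rk B u v * rk B u' v' = B v' u • rk B u' v := by
  ext x; simp [smul_smul, mul_comm]

/-- A bilinear map vanishing on orthogonal pairs is a multiple of the form. -/
theorem bilin_eq_of_orth {M : Type*} [AddCommGroup M] [Module ℂ M] (S : H →ₗ[ℂ] H →ₗ[ℂ] M)
    (hS : ∀ u ∈ V, ∀ v ∈ V, B u v = 0 → S u v = 0) {u v u' v' : H} (hu : u ∈ V) (hv : v ∈ V)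
    (hu' : u' ∈ V) (hv' : v' ∈ V) : B u' v' • S u v = B u v • S u' v' := by
  have h1 : ∀ u ∈ V, ∀ v ∈ V, ∀ v' ∈ V, B u v' • S u v = B u v • S u v' := by
    intro u hu v hv v' hv'
    have := hS u hu (B u v' • v - B u v • v') (V.sub_mem (V.smul_mem _ hv) (V.smul_mem _ hv'))
      (by simp [mul_comm])
    rwa [map_sub, map_smul, map_smul, sub_eq_zero] at this
  have h2 : ∀ v ∈ V, ∀ u ∈ V, ∀ u' ∈ V, B u' v • S u v = B u v • S u' v := by
    intro v hv u hu u' hu'
    have := hS (B u' v • u - B u v • u') (V.sub_mem (V.smul_mem _ hu) (V.smul_mem _ hu')) v hv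
      (by simp [mul_comm])
    rwa [map_sub, map_smul, map_smul, LinearMap.sub_apply, LinearMap.smul_apply,
      LinearMap.smul_apply, sub_eq_zero] at this
  have h3 : ∀ u ∈ V, ∀ v ∈ V, ∀ u' ∈ V, ∀ v' ∈ V, B u v' ≠ 0 →
      B u' v' • S u v = B u v • S u' v' := by
    intro u hu v hv u' hu' v' hv' hne
    refine smul_right_injective M hne ?_
    change B u v' • B u' v' • S u v = B u v' • B u v • S u' v'
    rw [smul_comm, h1 u hu v hv v' hv', smul_comm, h2 v' hv' u hu u' hu', smul_comm]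
  by_cases h4 : B u v' = 0
  · by_cases h5 : B u v = 0
    · rw [hS u hu v hv h5, h5, smul_zero, zero_smul]
    · have h6 := h3 u hu v hv u' hu' (v' + v) (V.add_mem hv' hv) (by simpa [h4] using h5)
      rw [map_add, map_add, add_smul, smul_add, h2 v hv u hu u' hu'] at h6
      exact add_right_cancel h6
  · exact h3 u hu v hv u' hu' v' hv' h4

/-- From rank one maps to all traceless maps. -/
theorem InJ.mem (h : IsForm B V ε) {κ : Type*} [Fintype κ] {e f : κ → H} (hF : Frame B V e f)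
    {p p' : R} (hp : InJ B V ε φ 𝔞 p p') {A A' : Module.End ℂ H} (hA : Adj B V A A')
    (htr : tr B e f A = 0) : φ p A - φ p' A' ∈ 𝔞 := by
  let S : H →ₗ[ℂ] H →ₗ[ℂ] E ⧸ 𝔞 := LinearMap.mk₂ ℂ
    (fun u v => 𝔞.mkQ (φ p (rk B u v) - φ p' (ε • rk B v u)))
    (fun u u' v => by
      rw [← map_add, rk_add_left, rk_add_right, smul_add, map_add, map_add]; congr 1; abel)
    (fun c u v => by
      rw [← map_smul, rk_smul_left, rk_smul_right, smul_comm ε, map_smul, map_smul, smul_sub])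
    (fun u v v' => by
      rw [← map_add, rk_add_left, rk_add_right, smul_add, map_add, map_add]; congr 1; abel)
    (fun c u v => by
      rw [← map_smul, rk_smul_left, rk_smul_right, smul_comm ε, map_smul, map_smul, smul_sub])
  have hS : ∀ u ∈ V, ∀ v ∈ V, B u v = 0 → S u v = 0 := fun u hu v hv h0 =>
    (Submodule.Quotient.mk_eq_zero 𝔞).2 (hp u hu v hv h0)
  have h1 : 𝔞.mkQ (φ p A - φ p' A') = ∑ a, S (f a) (A (e a)) := by
    conv_lhs => rw [hA.eq_sum' h hF, hA.eq_sum h hF]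
    simp only [map_sum, ← Finset.sum_sub_distrib, S, LinearMap.mk₂_apply]
    refine Finset.sum_congr rfl fun a _ => ?_
    rw [← hA.eq_sum h hF]
  rw [← Submodule.Quotient.mk_eq_zero, ← Submodule.mkQ_apply, h1]
  by_cases h2 : ∃ u ∈ V, ∃ v ∈ V, B u v ≠ 0
  · obtain ⟨u, hu, v, hv, huv⟩ := h2
    refine smul_right_injective _ huv ?_
    change B u v • ∑ a, S (f a) (A (e a)) = B u v • (0 : E ⧸ 𝔞)
    rw [Finset.smul_sum, smul_zero, Finset.sum_congr rfl fun a _ =>
      bilin_eq_of_orth S hS (hF.f_mem a) (hA.mem (e a)) hu hv, ← Finset.sum_smul]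
    have : ∑ a, B (f a) (A (e a)) = ε * tr B e f A := by
      rw [tr, Finset.mul_sum]
      exact Finset.sum_congr rfl fun a _ => h.symm _ (hF.f_mem a) _ (hA.mem _)
    rw [this, htr, mul_zero, zero_smul]
  · push Not at h2
    exact Finset.sum_eq_zero fun a _ => hS _ (hF.f_mem a) _ (hA.mem _)
      (h2 _ (hF.f_mem a) _ (hA.mem _))

/-- In dimension at least five the orthogonal of two vectors is not isotropic. -/
theorem exists_pair_orth [FiniteDimensional ℂ H] (h : IsForm B V ε) (hV : 5 ≤ Module.finrank ℂ V)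
    (u v : H) : ∃ w ∈ V, ∃ w' ∈ V, B w u = 0 ∧ B w v = 0 ∧
      B w' u = 0 ∧ B w' v = 0 ∧ B w' w = 1 := by
  let L : V →ₗ[ℂ] ℂ × ℂ := ((B.flip u).prod (B.flip v)).comp V.subtype
  let W := LinearMap.ker L
  have hW : ∀ x : V, x ∈ W ↔ B x u = 0 ∧ B x v = 0 := fun x => by simp [W, L]
  have h1 : 3 ≤ Module.finrank ℂ W := by
    have h2 := L.finrank_range_add_finrank_ker
    have h3 := (LinearMap.range L).finrank_le
    simp only [Module.finrank_prod, Module.finrank_self] at h3
    change 3 ≤ Module.finrank ℂ (LinearMap.ker L)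
    omega
  by_contra hcon
  push Not at hcon
  have h2 : ∀ w ∈ W, ∀ w' ∈ W, B w' w = 0 := by
    intro w hw w' hw'
    by_contra h3
    rw [hW] at hw hw'
    refine hcon w w.2 ((B w' w)⁻¹ • (w' : H)) (V.smul_mem _ w'.2) hw.1 hw.2 (by simp [hw'.1])
      (by simp [hw'.2]) ?_
    simp [inv_mul_cancel₀ h3]
  let Φ : W →ₗ[ℂ] Module.Dual ℂ (V ⧸ W) :=
    { toFun := fun w => W.liftQ ((B.flip ((w : V) : H)).comp V.subtype) fun w' hw' => by
        simpa using h2 w w.2 w' hw'
      map_add' := fun a b => by ext x; simp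
      map_smul' := fun c a => by ext x; simp }
  have hΦ : Injective Φ := by
    rw [injective_iff_map_eq_zero]
    intro w hw
    refine Subtype.ext (Subtype.ext (h.nondeg _ (w : V).2 fun y hy => ?_))
    have := congrArg (fun l : Module.Dual ℂ (V ⧸ W) => l (W.mkQ ⟨y, hy⟩)) hw
    simpa [Φ] using this
  have h3 := LinearMap.finrank_le_finrank_of_injective hΦ
  rw [Subspace.dual_finrank_eq] at h3
  have h4 := W.finrank_quotient_add_finrank
  have h5 := L.finrank_range_add_finrank_ker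
  have h6 := (LinearMap.range L).finrank_le
  simp only [Module.finrank_prod, Module.finrank_self] at h6
  change Module.finrank ℂ (V ⧸ W) + Module.finrank ℂ (LinearMap.ker L) = _ at h4
  change 3 ≤ Module.finrank ℂ (LinearMap.ker L) at h1
  change Module.finrank ℂ (LinearMap.ker L) ≤ _ at h3
  omega

/-- The product rule. -/
theorem InJ.mul [FiniteDimensional ℂ H] (h : IsForm B V ε) (hV : 5 ≤ Module.finrank ℂ V)
    (hφ : Tens φ 𝔞) {p p' q q' : R} (hp : InJ B V ε φ 𝔞 p p') (hq : InJ B V ε φ 𝔞 q q') :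
    InJ B V ε φ 𝔞 (p * q) (q' * p') := by
  intro u hu v hv huv
  obtain ⟨w, hw, w', hw', h1, h2, h3, h4, h5⟩ := exists_pair_orth h hV u v
  have h6 : B u w = 0 := by rw [h.symm u hu w hw, h1, mul_zero]
  have h7 : B v w = 0 := by rw [h.symm v hv w hw, h2, mul_zero]
  have h8 : B u w' = 0 := by rw [h.symm u hu w' hw', h3, mul_zero]
  have h9 : B v w' = 0 := by rw [h.symm v hv w' hw', h4, mul_zero]
  have h10 : B v u = 0 := by rw [h.symm v hv u hu, huv, mul_zero]
  have h11 : B w w' = ε := by rw [h.symm w hw w' hw', h5, mul_one]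
  have := hφ.lie _ (hp w hw v hv h2) _ (hq u hu w' hw' h8)
  simp only [mul_sub, sub_mul, hφ.mul, mul_smul_comm, smul_mul_assoc, rk_mul_rk, h1, h4, h5, h6,
    h9, h10, h11, huv, zero_smul, smul_zero, map_zero, one_smul, sub_zero, zero_sub,
    smul_smul, h.sq, neg_neg] at this
  exact this

end Vale.Agent.P269.Inv
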