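import Vale.Agent.P269.Inv.Dens

/-!
# P269, invariant theory: infinite reflection groups (helper4)

An irreducible set of reflections in vectors of square `± 2` with integral products which
contains a real isotropic vector in its span generates a Zariski dense subgroup of the orthogonal
group.  We also show that the invariance under the Lie algebra and one reflection gives the
invariance under all reflections.
-/

open Function

namespace Vale.Agent.P269.Inv

variable {ι H : Type*} [Fintype ι] [DecidableEq ι] [AddCommGroup H] [Module ℂ H]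
variable {B : H →ₗ[ℂ] H →ₗ[ℂ] ℂ} {V : Submodule ℂ H} {Δ : Set H} {T : MF ι H}

/-- `x` is a non isotropic vector of `V` whose reflection fixes `T`. -/
structure Good (B : H →ₗ[ℂ] H →ₗ[ℂ] ℂ) (V : Submodule ℂ H) (T : MF ι H) (x : H) : Prop where
  mem : x ∈ V
  ne : B x x ≠ 0
  fixes : Fixes (refl B x) T

omit [Fintype ι] [DecidableEq ι] in
theorem Good.smul {x : H} (hx : Good B V T x) {c : ℂ} (hc : c ≠ 0) : Good B V T (c • x) :=
  ⟨V.smul_mem c hx.mem, by simpa [hc] using hx.ne, by rw [refl_smul hc]; exact hx.fixes⟩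

omit [Fintype ι] [DecidableEq ι] in
theorem Good.refl (h : IsForm B V 1) {x y : H} (hy : Good B V T y) (hx : Good B V T x) :
    Good B V T (refl B y x) :=
  ⟨refl_mem hy.mem hx.mem, by rw [h.refl_refl hy.mem hy.ne hx.mem]; exact hx.ne, by
    rw [h.refl_conj hy.mem hy.ne hx.mem]
    exact (hy.fixes.mul hx.fixes).mul hy.fixes⟩

/-- The slopes of the images of `a` in the infinite dihedral group. -/
noncomputable def slope (k : ℝ) : ℕ → ℝ
  | 0 => k
  | m + 1 => k - slope k m / (k * slope k m - 1)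

theorem one_lt_slope {k : ℝ} (hk : 2 ≤ k) (m : ℕ) : 1 < slope k m := by
  induction m with
  | zero => simp only [slope]; linarith
  | succ m ih =>
    have h1 : 0 < k * slope k m - 1 := by nlinarith
    have h2 : slope k m / (k * slope k m - 1) < 1 := by
      rw [div_lt_one h1]
      nlinarith
    simp only [slope]
    linarith

theorem slope_succ_lt {k : ℝ} (hk : 2 ≤ k) (m : ℕ) : slope k (m + 1) < slope k m := by
  induction m with
  | zero =>
    have h1 : 0 < k * k - 1 := by nlinarith
    have h2 : 0 < k / (k * k - 1) := div_pos (by linarith) h1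
    simp only [slope]
    linarith
  | succ m ih =>
    have h1 := one_lt_slope hk m
    have h2 := one_lt_slope hk (m + 1)
    have h3 : 0 < k * slope k m - 1 := by nlinarith
    have h4 : 0 < k * slope k (m + 1) - 1 := by nlinarith
    have h5 : slope k m / (k * slope k m - 1) < slope k (m + 1) / (k * slope k (m + 1) - 1) := by
      rw [div_lt_div_iff₀ h3 h4]
      nlinarith
    conv_lhs => rw [slope]
    conv_rhs => rw [slope]
    linarith

theorem slope_injective {k : ℝ} (hk : 2 ≤ k) : Injective (slope k) :=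
  (strictAnti_nat_of_succ_lt (slope_succ_lt hk)).injective

/-- Two reflections generating an infinite dihedral group. -/
theorem kills_wd_of_two_le (h : IsForm B V 1) {a b : H} (ha : Good B V T a) (hb : Good B V T b)
    (hab : B b b = B a a) {k : ℝ} (hk : 2 ≤ k) (hk' : 2 * B a b = -(k : ℂ) * B a a) :
    Kills (wd B 1 a b) T := by
  have hba : B b a = B a b := h.comm hb.mem ha.mem
  have ha0 := ha.ne
  have hab' : B a b = -(k : ℂ) * B a a / 2 := by linear_combination hk' / 2
  have h1 : ∀ t : ℂ, Good B V T (a + t • b) → Good B V T (a + ((k : ℂ) - t) • b) := by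
    intro t ht
    have h2 := hb.refl h ht
    have h3 : refl B b (a + t • b) = a + ((k : ℂ) - t) • b := by
      simp only [refl_apply, map_add, map_smul, hab, hab']
      have : 2 / B a a * (-(k : ℂ) * B a a / 2) = -k := by field_simp
      rw [this, div_mul_cancel₀ _ ha0]
      module
    rwa [h3] at h2
  have h2 : ∀ t : ℂ, (k : ℂ) * t - 1 ≠ 0 → Good B V T (a + t • b) →
      Good B V T (a + (t / (k * t - 1)) • b) := by
    intro t hne ht
    have h2 := (ha.refl h ht).smul (inv_ne_zero hne)
    have h3 : ((k : ℂ) * t - 1)⁻¹ • refl B a (a + t • b) = a + (t / (k * t - 1)) • b := by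
      simp only [refl_apply, map_add, map_smul, hba, hab']
      have : 2 / B a a * (-(k : ℂ) * B a a / 2) = -k := by field_simp
      rw [this, div_mul_cancel₀ _ ha0]
      match_scalars
      · field_simp
        ring
      · field_simp
    rwa [h3] at h2
  have h3 : ∀ m, Good B V T (a + (slope k m : ℂ) • b) := by
    intro m
    induction m with
    | zero =>
      have := h1 0 (by simpa using ha)
      simpa [slope] using this
    | succ m ih =>
      have h4 := one_lt_slope hk m
      have h5 : (k : ℂ) * slope k m - 1 ≠ 0 := by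
        have : 0 < k * slope k m - 1 := by nlinarith
        exact_mod_cast this.ne'
      have := h1 _ (h2 _ h5 ih)
      simpa [slope] using this
  have h4 := kills_of_infinite T
    ((-(k : ℂ) • 1 - (2 / B a a) • (rk B a b + rk B b a)) * refl B a)
    ((1 - (2 / B a a) • rk B b b) * refl B a) (-(k : ℂ)) 1
    (S := Set.range fun m : ℕ => (slope k m : ℂ))
    (Set.infinite_range_of_injective fun m m' hm => slope_injective hk (by exact_mod_cast hm)) (by
      rintro t ⟨m, hm⟩ v
      have ht : Good B V T (a + t • b) := hm ▸ h3 m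
      have hq : B (a + t • b) (a + t • b) = (1 + t * -(k : ℂ) + t ^ 2 * 1) * B a a := by
        simp only [map_add, map_smul, LinearMap.add_apply, LinearMap.smul_apply, smul_eq_mul, hab,
          hba, hab']
        ring
      have hq0 : (1 + t * -(k : ℂ) + t ^ 2 * 1) ≠ 0 := left_ne_zero_of_mul (hq ▸ ht.ne)
      rw [← (ht.fixes.mul ha.fixes) v, ← Finset.card_univ, ← Finset.prod_const,
        ← smul_eq_mul (∏ _i : ι, _), ← T.map_smul_univ]
      congr 1
      funext i
      have h5 : v i = refl B a (refl B a (v i)) := by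
        rw [← Module.End.mul_apply, refl_mul_self ha0, Module.End.one_apply]
      simp only [Module.End.mul_apply]
      generalize refl B a (v i) = y at h5
      have h6 : ∀ z : ℂ, (1 + t * -(k : ℂ) + t ^ 2 * 1) *
          (2 / ((1 + t * -(k : ℂ) + t ^ 2 * 1) * B a a) * z) = 2 / B a a * z := by
        intro z
        generalize (1 + t * -(k : ℂ) + t ^ 2 * 1) = q at hq0
        field_simp
      rw [h5, refl_apply (a + t • b), hq, refl_apply a, smul_sub _ y, smul_smul, h6]
      simp only [LinearMap.sub_apply, LinearMap.smul_apply, LinearMap.add_apply,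
        Module.End.one_apply, rk_apply, map_add, map_smul, smul_eq_mul]
      module)
  refine Kills.of_smul (c := 2 / B a a) (div_ne_zero two_ne_zero ha0) ?_
  convert h4 using 1
  ext x
  simp only [LinearMap.sub_apply, LinearMap.smul_apply, LinearMap.add_apply, Module.End.mul_apply,
    Module.End.one_apply, rk_apply, refl_apply, wd_apply, map_sub, map_smul, hab']
  match_scalars
  · field_simp
    ring
  · field_simp
    ring
  · ring

/-- The closure of `Δ` under its reflections. -/
inductive Root (B : H →ₗ[ℂ] H →ₗ[ℂ] ℂ) (Δ : Set H) : H → Prop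
  | base {δ : H} : δ ∈ Δ → Root B Δ δ
  | refl {a b : H} : Root B Δ a → Root B Δ b → Root B Δ (refl B a b)

theorem int_of_closure (hint : ∀ a ∈ Δ, ∀ b ∈ Δ, ∃ k : ℤ, B a b = k) {a b : H}
    (ha : a ∈ AddSubgroup.closure Δ) (hb : b ∈ AddSubgroup.closure Δ) : ∃ k : ℤ, B a b = k := by
  induction ha using AddSubgroup.closure_induction with
  | mem a ha =>
    induction hb using AddSubgroup.closure_induction with
    | mem b hb => exact hint a ha b hb
    | zero => exact ⟨0, by simp⟩
    | add x y _ _ hx hy =>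
      obtain ⟨k, hk⟩ := hx
      obtain ⟨l, hl⟩ := hy
      exact ⟨k + l, by simp [hk, hl]⟩
    | neg x _ hx =>
      obtain ⟨k, hk⟩ := hx
      exact ⟨-k, by simp [hk]⟩
  | zero => exact ⟨0, by simp⟩
  | add x y _ _ hx hy =>
    obtain ⟨k, hk⟩ := hx
    obtain ⟨l, hl⟩ := hy
    exact ⟨k + l, by simp [hk, hl]⟩
  | neg x _ hx =>
    obtain ⟨k, hk⟩ := hx
    exact ⟨-k, by simp [hk]⟩

omit [Fintype ι] [DecidableEq ι] in
theorem Root.spec (h : IsForm B V 1) (hΔ : ∀ δ ∈ Δ, δ ∈ V) {s : ℤ} (hs : s * s = 1)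
    (hc : ∀ δ ∈ Δ, B δ δ = 2 * s) (hint : ∀ a ∈ Δ, ∀ b ∈ Δ, ∃ k : ℤ, B a b = k)
    (hT : ∀ δ ∈ Δ, Fixes (Inv.refl B δ) T) {a : H} (ha : Root B Δ a) :
    Good B V T a ∧ B a a = 2 * s ∧ a ∈ AddSubgroup.closure Δ := by
  have hs' : (s : ℂ) * s = 1 := by exact_mod_cast hs
  have hs0 : (s : ℂ) ≠ 0 := left_ne_zero_of_mul_eq_one hs'
  induction ha with
  | base hδ =>
    exact ⟨⟨hΔ _ hδ, by rw [hc _ hδ]; simpa using hs0, hT _ hδ⟩, hc _ hδ,
      AddSubgroup.subset_closure hδ⟩
  | @refl a b _ _ iha ihb =>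
    refine ⟨iha.1.refl h ihb.1, by rw [h.refl_refl iha.1.mem iha.1.ne ihb.1.mem, ihb.2.1], ?_⟩
    obtain ⟨k, hk⟩ := int_of_closure hint ihb.2.2 iha.2.2
    rw [refl_apply, iha.2.1, hk]
    have : (2 / (2 * (s : ℂ)) * k) = ((s * k : ℤ) : ℂ) := by
      push_cast
      field_simp
      linear_combination (-(k : ℂ)) * hs'
    rw [this, Int.cast_smul_eq_zsmul]
    exact AddSubgroup.sub_mem _ ihb.2.2 (AddSubgroup.zsmul_mem _ iha.2.2 _)

theorem im_of_closure {x : H} (hx : ∀ δ ∈ Δ, (B x δ).im = 0) {b : H}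
    (hb : b ∈ AddSubgroup.closure Δ) : (B x b).im = 0 := by
  induction hb using AddSubgroup.closure_induction with
  | mem b hb => exact hx b hb
  | zero => simp
  | add x y _ _ hx hy => simp [hx, hy]
  | neg x _ hx => simp [hx]

/-- If the set of roots is finite, the form is definite on the real span. -/
theorem eq_zero_of_finite [FiniteDimensional ℂ H] (h : IsForm B V 1) (hΔ : Irr B V Δ)
    (hR : ∀ a, Root B Δ a → a ∈ V ∧ B a a ≠ 0 ∧ a ∈ AddSubgroup.closure Δ)
    (hfin : {a | Root B Δ a}.Finite) {x : H} (hxV : x ∈ V) (hxx : B x x = 0)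
    (hx : ∀ δ ∈ Δ, (B x δ).im = 0) : x = 0 := by
  by_contra hx0
  let R := hfin.toFinset
  have hmemR : ∀ a, a ∈ R ↔ Root B Δ a := fun a => by simp [R]
  let S : Module.End ℂ H := ∑ a ∈ R, rk B a a
  have hS : ∀ y, S y = ∑ a ∈ R, B y a • a := fun y => by simp [S, LinearMap.sum_apply]
  have hSV : ∀ y, S y ∈ V := fun y => by
    rw [hS]
    exact V.sum_mem fun a ha => V.smul_mem _ (hR a ((hmemR a).1 ha)).1
  have hcomm : ∀ δ ∈ Δ, ∀ y, S (refl B δ y) = refl B δ (S y) := by
    intro δ hδ y
    have hδ0 := (hR δ (Root.base hδ)).2.1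
    have hinv : ∀ a, refl B δ (refl B δ a) = a := fun a => by
      rw [← Module.End.mul_apply, refl_mul_self hδ0, Module.End.one_apply]
    rw [hS, hS, map_sum]
    refine Finset.sum_bij' (fun a _ => refl B δ a) (fun a _ => refl B δ a)
      (fun a ha => (hmemR _).2 ((Root.base hδ).refl ((hmemR a).1 ha)))
      (fun a ha => (hmemR _).2 ((Root.base hδ).refl ((hmemR a).1 ha)))
      (fun a _ => hinv a) (fun a _ => hinv a) fun a ha => ?_
    rw [map_smul, hinv, h.refl_adj (hΔ.mem hδ) (hR a ((hmemR a).1 ha)).1]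
  have : Nontrivial V := ⟨⟨⟨x, hxV⟩, 0, fun h0 => hx0 (congrArg Subtype.val h0)⟩⟩
  obtain ⟨l, hl⟩ := Module.End.exists_eigenvalue (S.restrict fun y (_ : y ∈ V) => hSV y)
  obtain ⟨w, hw⟩ := hl.exists_hasEigenvector
  have hw1 : S w = l • (w : H) := congrArg Subtype.val hw.apply_eq_smul
  let W : Submodule ℂ H := V ⊓ LinearMap.ker (S - l • 1)
  have hW : ∀ y, y ∈ W ↔ y ∈ V ∧ S y = l • y := fun y => by
    simp [W, sub_eq_zero]
  have hWV : W = V := by
    refine (hΔ.irr W inf_le_left fun δ hδ => ?_).resolve_left fun h0 => ?_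
    · by_cases h1 : ∀ y ∈ W, B y δ = 0
      · exact Or.inr h1
      · left
        push Not at h1
        obtain ⟨y, hy, hyδ⟩ := h1
        have h2 : refl B δ y ∈ W := by
          rw [hW] at hy ⊢
          exact ⟨refl_mem (hΔ.mem hδ) hy.1, by rw [hcomm δ hδ, hy.2, map_smul]⟩
        have h3 := W.sub_mem hy h2
        rw [refl_apply, sub_sub_cancel] at h3
        exact (W.smul_mem_iff (mul_ne_zero
          (div_ne_zero two_ne_zero (hR δ (Root.base hδ)).2.1) hyδ)).1 h3
    · have : (w : H) ∈ W := (hW w).2 ⟨w.2, hw1⟩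
      rw [h0, Submodule.mem_bot] at this
      exact hw.2 (Subtype.ext this)
  have h1 : S x = l • x := ((hW x).1 (hWV ▸ hxV)).2
  have h2 : ∑ a ∈ R, B x a * B x a = 0 := by
    have := congrArg (B x) h1
    rw [hS, map_sum, map_smul, hxx, smul_zero] at this
    simpa using this
  have h3 : ∑ a ∈ R, (B x a).re * (B x a).re = 0 := by
    have := congrArg Complex.re h2
    rw [Complex.re_sum] at this
    rw [← Complex.zero_re, ← this]
    refine Finset.sum_congr rfl fun a ha => ?_
    rw [Complex.mul_re, im_of_closure hx (hR a ((hmemR a).1 ha)).2.2]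
    ring
  refine hx0 (h.eq_zero_of_span hΔ.span hxV fun δ hδ => ?_)
  have h4 := (Finset.sum_eq_zero_iff_of_nonneg fun a _ => mul_self_nonneg _).1 h3 δ
    ((hmemR δ).2 (Root.base hδ))
  exact Complex.ext (by simpa using h4) (by simpa using hx δ hδ)

/-- A set of vectors of `V` with bounded integral products with a spanning set is finite. -/
theorem finite_of_bounded [FiniteDimensional ℂ H] {ε : ℂ} (h : IsForm B V ε)
    (hs : Submodule.span ℂ Δ = V) {R : Set H} (hRV : ∀ a ∈ R, a ∈ V) {N : ℤ}
    (hR : ∀ a ∈ R, ∀ δ ∈ Δ, ∃ k : ℤ, |k| ≤ N ∧ B a δ = k) : R.Finite := by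
  obtain ⟨F, hF, hFs⟩ : ∃ F : Finset H, (F : Set H) ⊆ Δ ∧ Submodule.span ℂ (F : Set H) = V := by
    have := (Submodule.fg_span_iff_fg_span_finset_subset (R := ℂ) Δ).1
      (IsNoetherian.noetherian _)
    obtain ⟨F, h1, h2⟩ := this
    exact ⟨F, h1, h2.symm.trans hs⟩
  refine Set.Finite.of_finite_image (f := fun a (f : F) => B a f) ?_ ?_
  · refine (Set.Finite.pi' (t := fun _ : F => (fun k : ℤ => (k : ℂ)) '' Set.Icc (-N) N)
      fun _ => (Set.finite_Icc _ _).image _).subset ?_
    rintro _ ⟨a, ha, rfl⟩ f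
    obtain ⟨k, hk, hk'⟩ := hR a ha f (hF f.2)
    exact ⟨k, abs_le.1 hk, hk'.symm⟩
  · intro a ha b hb hab
    rw [← sub_eq_zero]
    refine h.eq_zero_of_span hFs (V.sub_mem (hRV a ha) (hRV b hb)) fun f hf => ?_
    have := congrFun hab ⟨f, hf⟩
    simp only at this
    simp [this]

/-- **Deligne**: an irreducible integral set of reflections whose real span contains an isotropic
vector is Zariski dense: every fixed form is killed by the orthogonal Lie algebra. -/
theorem lieInv_of_indefinite [FiniteDimensional ℂ H] (h : IsForm B V 1) (hΔ : Irr B V Δ) {s : ℤ}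
    (hs : s * s = 1) (hc : ∀ δ ∈ Δ, B δ δ = 2 * s)
    (hint : ∀ a ∈ Δ, ∀ b ∈ Δ, ∃ k : ℤ, B a b = k) (hT : ∀ δ ∈ Δ, Fixes (refl B δ) T)
    {x : H} (hxV : x ∈ V) (hx0 : x ≠ 0) (hxx : B x x = 0) (hx : ∀ δ ∈ Δ, (B x δ).im = 0) :
    LieInv B V 1 T := by
  have hs' : (s : ℂ) * s = 1 := by exact_mod_cast hs
  have hs0 : (s : ℂ) ≠ 0 := left_ne_zero_of_mul_eq_one hs'
  have hR := fun a (ha : Root B Δ a) => ha.spec h (fun δ hδ => hΔ.mem hδ) hs hc hint hT
  obtain ⟨a, ha, b, hb, k, hk, hk2⟩ : ∃ a, Root B Δ a ∧ ∃ b, Root B Δ b ∧ ∃ k : ℤ, B a b = k ∧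
      2 < |k| := by
    by_contra hcon
    push Not at hcon
    refine hx0 (eq_zero_of_finite h hΔ (fun a ha => ⟨(hR a ha).1.mem, (hR a ha).1.ne,
      (hR a ha).2.2⟩) (finite_of_bounded h hΔ.span (fun a ha => (hR a ha).1.mem) (N := 2) ?_)
      hxV hxx hx)
    intro a ha δ hδ
    obtain ⟨k, hk⟩ := int_of_closure hint (hR a ha).2.2 (AddSubgroup.subset_closure hδ)
    exact ⟨k, hcon a ha δ (Root.base hδ) k hk, hk⟩
  have hne : wd B 1 a b ≠ 0 := by
    intro h0
    have h1 := congrArg (fun A : Module.End ℂ H => B b (A a)) h0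
    simp only [wd_apply, map_sub, map_smul, smul_eq_mul, LinearMap.zero_apply, map_zero,
      h.comm (hR b hb).1.mem (hR a ha).1.mem, hk, (hR a ha).2.1, (hR b hb).2.1] at h1
    have h2 : (k : ℂ) * k = 4 := by linear_combination 4 * hs' - h1
    have h3 : k * k = 4 := by exact_mod_cast h2
    have h4 : |k| * |k| = 4 := by rw [abs_mul_abs_self, h3]
    nlinarith
  have hkill : Kills (wd B 1 a b) T := by
    have habs : |s * k| = |k| := by
      rw [abs_mul]
      rcases Int.eq_one_or_neg_one_of_mul_eq_one hs with h1 | h1 <;> simp [h1]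
    rcases le_total 0 (s * k) with h1 | h1
    · have h2 := kills_wd_of_two_le h (hR a ha).1 ((hR b hb).1.smul (c := -1) (by simp))
        (by simp [(hR a ha).2.1, (hR b hb).2.1]) (k := ((s * k : ℤ) : ℝ)) (by
          rw [abs_of_nonneg h1] at habs
          exact_mod_cast (habs ▸ hk2.le : 2 ≤ s * k)) (by
          simp only [map_smul, smul_eq_mul, hk, (hR a ha).2.1]
          push_cast
          linear_combination (2 * (k : ℂ)) * hs')
      rw [wd_smul_right] at h2
      exact h2.of_smul (by simp)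
    · exact kills_wd_of_two_le h (hR a ha).1 (hR b hb).1
        (by simp [(hR a ha).2.1, (hR b hb).2.1]) (k := ((-(s * k) : ℤ) : ℝ)) (by
          rw [abs_of_nonpos h1] at habs
          exact_mod_cast (habs ▸ hk2.le : 2 ≤ -(s * k))) (by
          simp only [hk, (hR a ha).2.1]
          push_cast
          linear_combination (-2 * (k : ℂ)) * hs')
  exact lieInv_of_reflections h hΔ (fun δ hδ => (hR δ (Root.base hδ)).1.ne) hT
    (h.skew_wd (hR a ha).1.mem (hR b hb).1.mem) hne hkill

end Vale.Agent.P269.Inv
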